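import Vale.Agent.P361.H.Finite

namespace Vale.Agent.P361.H

open Matrix

lemma box_eq (N : ℕ) : box N = Fintype.piFinset fun _ : Fin 3 => Finset.Icc (-(N : ℤ)) N := rfl

lemma card_box (N : ℕ) : (box N).card = (2 * N + 1) ^ 3 := by
  rw [box_eq, Fintype.card_piFinset]
  simp only [Int.card_Icc, Finset.prod_const, Finset.card_univ, Fintype.card_fin]
  congr 1
  omega

lemma mem_box {N : ℕ} {x : Site} : x ∈ box N ↔ ∀ i, -(N : ℤ) ≤ x i ∧ x i ≤ N := by
  rw [box_eq, Fintype.mem_piFinset]
  simp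

/-- Wave number factor. -/
noncomputable def theta (N : ℕ) : ℝ := 2 * Real.pi / (2 * N + 1)

/-- Plane wave `exp(i k·x)`, `k = 2π l / (2N+1)`. -/
noncomputable def wave (N : ℕ) (l x : Site) : ℂ :=
  Complex.exp (((theta N * ∑ j, (l j : ℝ) * (x j : ℝ) : ℝ) : ℂ) * Complex.I)

lemma wave_normSq (N : ℕ) (l x : Site) : Complex.normSq (wave N l x) = 1 := by
  rw [Complex.normSq_eq_norm_sq, wave, Complex.norm_exp_ofReal_mul_I]; norm_num

lemma wave_star (N : ℕ) (l x : Site) : star (wave N l x) =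
    Complex.exp (((-(theta N * ∑ j, (l j : ℝ) * (x j : ℝ)) : ℝ) : ℂ) * Complex.I) := by
  rw [wave, Complex.star_def, ← Complex.exp_conj]
  congr 1
  simp

lemma normSq_one_sub_exp (a : ℝ) :
    Complex.normSq (1 - Complex.exp ((a : ℂ) * Complex.I)) = 2 * (1 - Real.cos a) := by
  rw [Complex.exp_mul_I, ← Complex.ofReal_cos, ← Complex.ofReal_sin, Complex.normSq_apply]
  simp only [Complex.sub_re, Complex.one_re, Complex.add_re, Complex.ofReal_re, Complex.mul_re,
    Complex.I_re, mul_zero, Complex.ofReal_im, Complex.I_im, mul_one, sub_self, add_zero,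
    Complex.sub_im, Complex.one_im, Complex.add_im, Complex.mul_im, zero_add]
  nlinarith [Real.sin_sq_add_cos_sq a]

lemma wave_sub (N : ℕ) (l x v : Site) :
    Complex.normSq (wave N l x - wave N l (x + v)) =
      2 * (1 - Real.cos (theta N * ∑ j, (l j : ℝ) * (v j : ℝ))) := by
  have : wave N l x - wave N l (x + v) = wave N l x *
      (1 - Complex.exp (((theta N * ∑ j, (l j : ℝ) * (v j : ℝ) : ℝ) : ℂ) * Complex.I)) := by
    rw [mul_sub, mul_one, wave, wave, ← Complex.exp_add]
    congr 2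
    rw [← add_mul, ← Complex.ofReal_add, ← mul_add, ← Finset.sum_add_distrib]
    simp only [Pi.add_apply]
    push_cast
    simp only [mul_add]
  rw [this, Complex.normSq_mul, wave_normSq, one_mul, normSq_one_sub_exp]

/-- The six unit vectors. -/
def dir (p : Fin 3 × Bool) : Site := Pi.single p.1 (if p.2 then 1 else -1)

lemma dir_injective : Function.Injective dir := by decide +revert

lemma isNN_iff (x y : Site) : IsNN x y ↔ ∃ p, y = x + dir p := by
  constructor
  · intro h
    unfold IsNN at h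
    rw [Fin.sum_univ_three] at h
    have key : ∀ a b c : ℤ, |a| + |b| + |c| = 1 →
        (a = 1 ∧ b = 0 ∧ c = 0) ∨ (a = -1 ∧ b = 0 ∧ c = 0) ∨ (a = 0 ∧ b = 1 ∧ c = 0) ∨
        (a = 0 ∧ b = -1 ∧ c = 0) ∨ (a = 0 ∧ b = 0 ∧ c = 1) ∨ (a = 0 ∧ b = 0 ∧ c = -1) := by
      intro a b c h
      rcases abs_cases a with ha | ha <;> rcases abs_cases b with hb | hb <;>
        rcases abs_cases c with hc | hc <;> omega
    have hx : ∀ p : Fin 3 × Bool, (y 0 = x 0 + dir p 0 ∧ y 1 = x 1 + dir p 1 ∧
        y 2 = x 2 + dir p 2) → y = x + dir p := by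
      intro p hp
      ext i
      fin_cases i
      · exact hp.1
      · exact hp.2.1
      · exact hp.2.2
    rcases key _ _ _ h with h | h | h | h | h | h
    · refine ⟨(0, false), hx _ ?_⟩
      simp [dir]; omega
    · refine ⟨(0, true), hx _ ?_⟩
      simp [dir]; omega
    · refine ⟨(1, false), hx _ ?_⟩
      simp [dir]; omega
    · refine ⟨(1, true), hx _ ?_⟩
      simp [dir]; omega
    · refine ⟨(2, false), hx _ ?_⟩
      simp [dir]; omega
    · refine ⟨(2, true), hx _ ?_⟩
      simp [dir]; omega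
  · rintro ⟨p, rfl⟩
    unfold IsNN
    have : ∀ p, ∑ i, |dir p i| = 1 := by decide
    rw [← this p]
    refine Finset.sum_congr rfl fun i _ => ?_
    rw [Pi.add_apply, sub_add_cancel_left, abs_neg]

lemma sum_nn_le (Λ : Finset Site) (x : Site) (g : Site → ℝ) (hg : ∀ y, 0 ≤ g y) :
    (∑ y : Λ, if IsNN x y.1 then g y.1 else 0) ≤ ∑ p, g (x + dir p) := by
  rw [Finset.sum_coe_sort Λ (fun y => if IsNN x y then g y else 0), ← Finset.sum_filter]
  have hinj : Function.Injective fun p => x + dir p := fun p q h => dir_injective (by simpa using h)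
  rw [← Finset.sum_image (f := g) (g := fun p => x + dir p) (s := Finset.univ)
    (fun p _ q _ h => hinj h)]
  refine Finset.sum_le_sum_of_subset_of_nonneg ?_ (fun y _ _ => hg y)
  intro y hy
  rw [Finset.mem_filter] at hy
  obtain ⟨p, hp⟩ := (isNN_iff x y).1 hy.2
  exact Finset.mem_image.2 ⟨p, Finset.mem_univ _, hp.symm⟩

/-- Dispersion `∑_j (1 - cos k_j)`. -/
noncomputable def disp (N : ℕ) (l : Site) : ℝ := ∑ j, (1 - Real.cos (theta N * (l j : ℝ)))

lemma disp_nonneg (N : ℕ) (l : Site) : 0 ≤ disp N l :=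
  Finset.sum_nonneg fun j _ => by have := Real.cos_le_one (theta N * (l j : ℝ)); linarith

lemma sum_wave_nn_le (Λ : Finset Site) (N : ℕ) (l : Site) :
    (∑ x : Λ, ∑ y : Λ, if IsNN x.1 y.1 then
      Complex.normSq (wave N l x.1 - wave N l y.1) else 0) ≤ Λ.card * (4 * disp N l) := by
  have h1 : ∀ x : Λ, (∑ y : Λ, if IsNN x.1 y.1 then
      Complex.normSq (wave N l x.1 - wave N l y.1) else 0) ≤ 4 * disp N l := by
    intro x
    refine (sum_nn_le Λ x.1 (fun y => Complex.normSq (wave N l x.1 - wave N l y))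
      (fun y => Complex.normSq_nonneg _)).trans (le_of_eq ?_)
    simp only [wave_sub]
    rw [Fintype.sum_prod_type, disp, Finset.mul_sum]
    refine Finset.sum_congr rfl fun j _ => ?_
    have e : ∀ b : Bool, ∑ i, (l i : ℝ) * ((dir (j, b) i : ℤ) : ℝ) =
        (l j : ℝ) * (if b then 1 else -1) := by
      intro b
      rw [Finset.sum_eq_single j]
      · cases b <;> simp [dir]
      · intro i _ hij
        simp [dir, Pi.single_eq_of_ne hij]
      · simp
    rw [Fintype.sum_bool, e, e]
    simp only [if_true, Bool.false_eq_true, if_false, mul_one, mul_neg, Real.cos_neg]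
    ring
  calc _ ≤ ∑ x : Λ, 4 * disp N l := Finset.sum_le_sum fun x _ => h1 x
    _ = _ := by simp

/-- One-dimensional orthogonality. -/
lemma sum_exp_Icc (N : ℕ) (d : ℤ) (hd : |d| ≤ 2 * N) :
    ∑ l ∈ Finset.Icc (-(N : ℤ)) N, Complex.exp (((theta N * ((l : ℝ) * (d : ℝ)) : ℝ) : ℂ) * Complex.I)
      = if d = 0 then (2 * N + 1 : ℂ) else 0 := by
  split_ifs with h0
  · subst h0
    simp
    push_cast [Int.card_Icc]
    have : ((N : ℤ) + 1 + N).toNat = 2 * N + 1 := by omega
    rw [this]; push_cast; rfl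
  · set ζ : ℂ := Complex.exp (((theta N * (d : ℝ) : ℝ) : ℂ) * Complex.I) with hζ
    have hL : (0 : ℝ) < 2 * N + 1 := by positivity
    have hζpow : ζ ^ (2 * N + 1) = 1 := by
      rw [hζ, ← Complex.exp_nat_mul, Complex.exp_eq_one_iff]
      refine ⟨d, ?_⟩
      rw [theta]
      push_cast
      have : (2 * (N : ℂ) + 1) ≠ 0 := by
        exact_mod_cast (Nat.succ_ne_zero (2 * N))
      field_simp
    have hζ1 : ζ ≠ 1 := by
      intro h
      rw [hζ, Complex.exp_eq_one_iff] at h
      obtain ⟨m, hm⟩ := h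
      have h2 : theta N * (d : ℝ) = m * (2 * Real.pi) := by
        have h3 : (((theta N * (d : ℝ) : ℝ) : ℂ)) * Complex.I = ((m * (2 * Real.pi) : ℝ) : ℂ) * Complex.I := by
          rw [hm]; push_cast; ring
        have h4 := mul_right_cancel₀ Complex.I_ne_zero h3
        exact_mod_cast h4
      rw [theta] at h2
      have h5 : (d : ℝ) = m * (2 * N + 1) := by
        have hpi := Real.pi_pos
        field_simp at h2
        linarith
      have h6 : d = m * (2 * N + 1) := by exact_mod_cast h5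
      have hm0 : m ≠ 0 := by rintro rfl; simp at h6; exact h0 h6
      have h7 : (2 * (N : ℤ) + 1) ≤ |d| := by
        rw [h6, abs_mul, abs_of_pos (show (0 : ℤ) < 2 * N + 1 by positivity)]
        have : 1 ≤ |m| := Int.one_le_abs hm0
        nlinarith
      omega
    have hterm : ∀ l : ℤ, Complex.exp (((theta N * ((l : ℝ) * (d : ℝ)) : ℝ) : ℂ) * Complex.I) =
        ζ ^ l := by
      intro l
      rw [hζ, ← Complex.exp_int_mul]
      congr 1
      push_cast; ring
    simp only [hterm]
    have hζ0 : ζ ≠ 0 := Complex.exp_ne_zero _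
    have hsum : ∑ l ∈ Finset.Icc (-(N : ℤ)) N, ζ ^ l =
        ζ ^ (-(N : ℤ)) * ∑ i ∈ Finset.range (2 * N + 1), ζ ^ i := by
      rw [Finset.mul_sum]
      refine Finset.sum_bij' (fun l _ => (l + N).toNat) (fun i _ => (i : ℤ) - N) ?_ ?_ ?_ ?_ ?_
      · intro l hl; rw [Finset.mem_Icc] at hl; rw [Finset.mem_range]; omega
      · intro i hi; rw [Finset.mem_range] at hi; rw [Finset.mem_Icc]; omega
      · intro l hl; rw [Finset.mem_Icc] at hl; omega
      · intro i hi; omega
      · intro l hl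
        rw [Finset.mem_Icc] at hl
        rw [← zpow_natCast, ← zpow_add₀ hζ0]
        congr 1
        omega
    rw [hsum, geom_sum_eq hζ1, hζpow, sub_self, zero_div, mul_zero]

/-- Orthogonality of plane waves on the box. -/
lemma wave_orthog (N : ℕ) {x y : Site} (hx : x ∈ box N) (hy : y ∈ box N) :
    ∑ l ∈ box N, wave N l x * star (wave N l y) =
      if x = y then ((2 * N + 1 : ℂ)) ^ 3 else 0 := by
  have hterm : ∀ l : Site, wave N l x * star (wave N l y) =
      ∏ j, Complex.exp (((theta N * ((l j : ℝ) * (((x j - y j : ℤ)) : ℝ)) : ℝ) : ℂ) *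
        Complex.I) := by
    intro l
    rw [wave_star, wave, ← Complex.exp_add, ← Complex.exp_sum]
    congr 1
    rw [← Finset.sum_mul, ← add_mul, ← Complex.ofReal_add, ← Complex.ofReal_sum]
    congr 2
    rw [← sub_eq_add_neg, ← mul_sub, ← Finset.mul_sum, ← Finset.sum_sub_distrib]
    congr 1
    refine Finset.sum_congr rfl fun j _ => ?_
    push_cast; ring
  simp only [hterm]
  rw [box_eq, ← Finset.prod_univ_sum (fun _ : Fin 3 => Finset.Icc (-(N : ℤ)) N)
    (fun j l => Complex.exp (((theta N * ((l : ℝ) * (((x j - y j : ℤ)) : ℝ)) : ℝ) : ℂ) *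
        Complex.I))]
  rw [mem_box] at hx hy
  have h1 : ∀ j, ∑ l ∈ Finset.Icc (-(N : ℤ)) N,
      Complex.exp (((theta N * ((l : ℝ) * (((x j - y j : ℤ)) : ℝ)) : ℝ) : ℂ) * Complex.I) =
      if x j - y j = 0 then (2 * N + 1 : ℂ) else 0 := by
    intro j
    refine sum_exp_Icc N (x j - y j) ?_
    have := hx j
    have := hy j
    rw [abs_le]; omega
  simp only [h1]
  split_ifs with hxy
  · subst hxy; simp
  · obtain ⟨j, hj⟩ := Function.ne_iff.1 hxy
    refine Finset.prod_eq_zero (Finset.mem_univ j) ?_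
    rw [if_neg (sub_ne_zero.2 hj)]

end Vale.Agent.P361.H
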