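import Mathlib

namespace Vale.Agent.P361.H

open MeasureTheory intervalIntegral Filter Topology

/-- `J(t) = π⁻¹ ∫₀^π exp(-t(1 - cos θ)) dθ`. -/
noncomputable def bJ (t : ℝ) : ℝ :=
  Real.pi⁻¹ * ∫ θ in (0 : ℝ)..Real.pi, Real.exp (-t * (1 - Real.cos θ))

lemma bJ_nonneg (t : ℝ) : 0 ≤ bJ t := by
  unfold bJ
  refine mul_nonneg (inv_nonneg.2 Real.pi_pos.le) ?_
  exact intervalIntegral.integral_nonneg Real.pi_pos.le fun θ _ => (Real.exp_pos _).le

lemma bJ_integrable (t : ℝ) : IntervalIntegrable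
    (fun θ => Real.exp (-t * (1 - Real.cos θ))) volume (0 : ℝ) Real.pi :=
  Continuous.intervalIntegrable (by fun_prop) _ _

lemma bJ_antitone {s t : ℝ} (h : s ≤ t) : bJ t ≤ bJ s := by
  unfold bJ
  refine mul_le_mul_of_nonneg_left ?_ (inv_nonneg.2 Real.pi_pos.le)
  refine intervalIntegral.integral_mono_on Real.pi_pos.le (bJ_integrable t) (bJ_integrable s) ?_
  intro θ _
  refine Real.exp_le_exp.2 ?_
  have : 0 ≤ 1 - Real.cos θ := by have := Real.cos_le_one θ; linarith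
  nlinarith

lemma bJ_continuous : Continuous bJ := by
  unfold bJ
  refine continuous_const.mul ?_
  refine intervalIntegral.continuous_parametric_intervalIntegral_of_continuous' ?_ _ _
  fun_prop

/-- Symmetric sums. -/
lemma sum_Icc_symm (N : ℕ) (g : ℝ → ℝ) (hg : ∀ x, g (-x) = g x) :
    ∑ l ∈ Finset.Icc (-(N : ℤ)) N, g (l : ℝ) =
      2 * ∑ i ∈ Finset.range (N + 1), g (i : ℝ) - g 0 := by
  induction N with
  | zero => simp; ring
  | succ N ih =>
    have h1 : Finset.Icc (-((N + 1 : ℕ) : ℤ)) ((N + 1 : ℕ) : ℤ) =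
        insert ((N + 1 : ℕ) : ℤ) (insert (-((N + 1 : ℕ) : ℤ)) (Finset.Icc (-(N : ℤ)) N)) := by
      ext l
      simp only [Finset.mem_Icc, Finset.mem_insert]
      omega
    rw [h1, Finset.sum_insert, Finset.sum_insert, ih, Finset.sum_range_succ _ (N + 1)]
    · have : g (((-((N + 1 : ℕ) : ℤ)) : ℤ) : ℝ) = g ((N + 1 : ℕ) : ℝ) := by
        rw [← hg]; congr 1; push_cast; ring
      rw [this]
      push_cast
      ring
    · simp only [Finset.mem_Icc]; omega
    · simp only [Finset.mem_Icc, Finset.mem_insert]; omega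

/-- Riemann-sum lower bound. -/
lemma riemann_lower (N : ℕ) (t : ℝ) (ht : 0 ≤ t) :
    bJ t - (2 * N + 1 : ℝ)⁻¹ ≤ (2 * N + 1 : ℝ)⁻¹ * ∑ l ∈ Finset.Icc (-(N : ℤ)) N,
      Real.exp (-t * (1 - Real.cos (2 * Real.pi / (2 * N + 1) * (l : ℝ)))) := by
  set L : ℝ := 2 * N + 1 with hL
  have hLpos : 0 < L := by positivity
  have hpi := Real.pi_pos
  set w : ℝ := 2 * Real.pi / L with hw
  have hwpos : 0 < w := by positivity
  rw [sum_Icc_symm N (fun x => Real.exp (-t * (1 - Real.cos (w * x))))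
    (fun x => by rw [mul_neg, Real.cos_neg])]
  set g : ℝ → ℝ := fun x => Real.exp (-t * (1 - Real.cos (min (w * x) Real.pi))) with hg
  have hanti : AntitoneOn g (Set.Icc (0 : ℝ) (0 + ((N + 1 : ℕ) : ℝ))) := by
    intro x hx y hy hxy
    refine Real.exp_le_exp.2 ?_
    have h1 : Real.cos (min (w * y) Real.pi) ≤ Real.cos (min (w * x) Real.pi) := by
      refine Real.cos_le_cos_of_nonneg_of_le_pi ?_ (min_le_right _ _) ?_
      · exact le_min (mul_nonneg hwpos.le hx.1) hpi.le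
      · exact min_le_min_right _ (mul_le_mul_of_nonneg_left hxy hwpos.le)
    nlinarith
  have h1 := hanti.integral_le_sum
  simp only [zero_add] at h1
  have hcont : Continuous g := by rw [hg]; fun_prop
  have hwN : ∀ i : ℕ, i < N + 1 → w * i ≤ Real.pi := by
    intro i hi
    have : (i : ℝ) ≤ N := by exact_mod_cast Nat.lt_succ_iff.1 hi
    rw [hw, div_mul_eq_mul_div, div_le_iff₀ hLpos, hL]
    nlinarith
  have h2 : ∑ i ∈ Finset.range (N + 1), g (i : ℝ) =
      ∑ i ∈ Finset.range (N + 1), Real.exp (-t * (1 - Real.cos (w * (i : ℝ)))) := by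
    refine Finset.sum_congr rfl fun i hi => ?_
    rw [hg]
    simp only
    rw [min_eq_left (hwN i (Finset.mem_range.1 hi))]
  rw [h2] at h1
  have h3 : ∫ x in (0 : ℝ)..(L / 2), g x ≤ ∫ x in (0 : ℝ)..((N + 1 : ℕ) : ℝ), g x := by
    have hadd := intervalIntegral.integral_add_adjacent_intervals (μ := volume)
      (hcont.intervalIntegrable 0 (L / 2)) (hcont.intervalIntegrable (L / 2) ((N + 1 : ℕ) : ℝ))
    have : 0 ≤ ∫ x in (L / 2)..((N + 1 : ℕ) : ℝ), g x := by
      refine intervalIntegral.integral_nonneg ?_ fun x _ => (Real.exp_pos _).le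
      rw [hL]; push_cast; linarith
    linarith
  have h4 : ∫ x in (0 : ℝ)..(L / 2), g x = w⁻¹ * ∫ θ in (0 : ℝ)..Real.pi,
      Real.exp (-t * (1 - Real.cos θ)) := by
    have e1 : ∫ x in (0 : ℝ)..(L / 2), g x = ∫ x in (0 : ℝ)..(L / 2),
        (fun θ => Real.exp (-t * (1 - Real.cos θ))) (w * x) := by
      refine intervalIntegral.integral_congr fun x hx => ?_
      rw [Set.uIcc_of_le (by positivity)] at hx
      simp only [hg]
      rw [min_eq_left]
      calc w * x ≤ w * (L / 2) := mul_le_mul_of_nonneg_left hx.2 hwpos.le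
        _ = Real.pi := by rw [hw]; field_simp
    rw [e1, intervalIntegral.integral_comp_mul_left (f := fun θ => Real.exp (-t * (1 - Real.cos θ)))
      hwpos.ne', mul_zero]
    have : w * (L / 2) = Real.pi := by rw [hw]; field_simp
    rw [this, smul_eq_mul]
  have h5 : L * bJ t ≤ 2 * ∑ i ∈ Finset.range (N + 1), Real.exp (-t * (1 - Real.cos (w * (i : ℝ)))) := by
    have e : L * bJ t = 2 * (w⁻¹ * ∫ θ in (0 : ℝ)..Real.pi, Real.exp (-t * (1 - Real.cos θ))) := by
      rw [bJ, hw]; field_simp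
    rw [e, ← h4]
    linarith
  have h6 : Real.exp (-t * (1 - Real.cos (w * 0))) = 1 := by simp
  rw [h6]
  have h7 : L⁻¹ * (L * bJ t) ≤ L⁻¹ * (2 * ∑ i ∈ Finset.range (N + 1),
      Real.exp (-t * (1 - Real.cos (w * (i : ℝ))))) :=
    mul_le_mul_of_nonneg_left h5 (by positivity)
  rw [← mul_assoc, inv_mul_cancel₀ hLpos.ne', one_mul] at h7
  rw [mul_sub, mul_one]
  linarith

/-- Gaussian lower bound for `J`. -/
lemma bJ_gauss_lower {t : ℝ} (ht : 0 < t) :
    Real.pi⁻¹ * (∫ u in (0 : ℝ)..(Real.pi * Real.sqrt t), Real.exp (-(1 / 2) * u ^ 2)) ≤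
      Real.sqrt t * bJ t := by
  have hs : 0 < Real.sqrt t := Real.sqrt_pos.2 ht
  have h1 : ∫ θ in (0 : ℝ)..Real.pi, Real.exp (-(1 / 2) * (Real.sqrt t * θ) ^ 2) ≤
      ∫ θ in (0 : ℝ)..Real.pi, Real.exp (-t * (1 - Real.cos θ)) := by
    refine intervalIntegral.integral_mono_on Real.pi_pos.le
      (Continuous.intervalIntegrable (by fun_prop) _ _) (bJ_integrable t) ?_
    intro θ _
    refine Real.exp_le_exp.2 ?_
    rw [mul_pow, Real.sq_sqrt ht.le]
    have := Real.one_sub_sq_div_two_le_cos (x := θ)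
    nlinarith
  rw [intervalIntegral.integral_comp_mul_left (f := fun u => Real.exp (-(1 / 2) * u ^ 2)) hs.ne',
    mul_zero, smul_eq_mul, mul_comm (Real.sqrt t) Real.pi] at h1
  rw [bJ]
  have h2 := mul_le_mul_of_nonneg_left h1 (mul_nonneg hs.le (inv_nonneg.2 Real.pi_pos.le))
  calc _ = Real.sqrt t * Real.pi⁻¹ * ((Real.sqrt t)⁻¹ *
      ∫ u in (0 : ℝ)..(Real.pi * Real.sqrt t), Real.exp (-(1 / 2) * u ^ 2)) := by
        field_simp
    _ ≤ _ := h2
    _ = _ := by ring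

lemma gauss_tendsto : Tendsto (fun t : ℝ => Real.pi⁻¹ *
    (∫ u in (0 : ℝ)..(Real.pi * Real.sqrt t), Real.exp (-(1 / 2) * u ^ 2))) atTop
    (𝓝 (Real.sqrt (2 * Real.pi))⁻¹) := by
  have h1 : Tendsto (fun X : ℝ => ∫ u in (0 : ℝ)..X, Real.exp (-(1 / 2) * u ^ 2)) atTop
      (𝓝 (∫ u in Set.Ioi (0 : ℝ), Real.exp (-(1 / 2) * u ^ 2))) := by
    refine intervalIntegral_tendsto_integral_Ioi 0 ?_ tendsto_id
    exact (integrable_exp_neg_mul_sq (by norm_num)).integrableOn
  rw [integral_gaussian_Ioi] at h1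
  have h2 : Tendsto (fun t : ℝ => Real.pi * Real.sqrt t) atTop atTop :=
    Tendsto.const_mul_atTop Real.pi_pos Real.tendsto_sqrt_atTop
  have h3 := (h1.comp h2).const_mul Real.pi⁻¹
  have e : Real.pi⁻¹ * (Real.sqrt (Real.pi / (1 / 2)) / 2) = (Real.sqrt (2 * Real.pi))⁻¹ := by
    have hpi := Real.pi_pos
    have h4 : Real.sqrt (2 * Real.pi) ^ 2 = 2 * Real.pi := Real.sq_sqrt (by positivity)
    have h5 : 0 < Real.sqrt (2 * Real.pi) := Real.sqrt_pos.2 (by positivity)
    rw [show Real.pi / (1 / 2) = 2 * Real.pi by ring]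
    generalize Real.sqrt (2 * Real.pi) = s at h4 h5
    have h6 : Real.pi = s ^ 2 / 2 := by linarith
    rw [h6]
    field_simp
  rw [e] at h3
  exact h3

/-- For every `c < (2π)^{-1/2}`, eventually `c ≤ √t J(t)`. -/
lemma bJ_asymp {c : ℝ} (hc : c < (Real.sqrt (2 * Real.pi))⁻¹) :
    ∀ᶠ t : ℝ in atTop, c ≤ Real.sqrt t * bJ t := by
  filter_upwards [gauss_tendsto.eventually (lt_mem_nhds hc), eventually_gt_atTop 0] with t h1 h2
  exact h1.le.trans (bJ_gauss_lower h2)

/-- Partial geometric sums below `1/(e^y - 1)`. -/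
lemma geom_le {y : ℝ} (hy : 0 < y) (R : ℕ) :
    ∑ r ∈ Finset.range R, Real.exp (-(((r : ℝ) + 1) * y)) ≤ 1 / (Real.exp y - 1) := by
  have h1 : 0 < Real.exp y - 1 := by have := Real.add_one_lt_exp hy.ne'; linarith
  rw [le_div_iff₀ h1]
  have h2 : ∀ R : ℕ, (∑ r ∈ Finset.range R, Real.exp (-(((r : ℝ) + 1) * y))) * (Real.exp y - 1) =
      1 - Real.exp (-((R : ℝ) * y)) := by
    intro R
    induction R with
    | zero => simp
    | succ R ih =>
      rw [Finset.sum_range_succ, add_mul, ih, mul_sub, ← Real.exp_add]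
      push_cast
      have : -(((R : ℝ) + 1) * y) + y = -(R * y) := by ring
      rw [this]; ring
  rw [h2]
  have := Real.exp_pos (-((R : ℝ) * y))
  linarith

end Vale.Agent.P361.H
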