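import Vale.Agent.P361.H.Bessel

namespace Vale.Agent.P361.H

open Filter Topology

/-- The predicted Bloch coefficient `ζ(3/2) / (8 π^{3/2} S^{3/2})`, here in terms of `S`. -/
noncomputable def blochCoeff (S : ℝ) : ℝ :=
  (riemannZeta (3 / 2)).re / (8 * Real.pi ^ (3 / 2 : ℝ) * S ^ (3 / 2 : ℝ))

lemma rpow_three_half {x : ℝ} (hx : 0 ≤ x) : x ^ (3 / 2 : ℝ) = Real.sqrt x ^ 3 := by
  rw [Real.sqrt_eq_rpow, ← Real.rpow_natCast, ← Real.rpow_mul hx]
  norm_num

lemma zeta_hasSum : HasSum (fun r : ℕ => 1 / Real.sqrt ((r : ℝ) + 1) ^ 3) (riemannZeta (3 / 2)).re := by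
  have h1 : riemannZeta (3 / 2) = ∑' r : ℕ, 1 / ((r : ℂ) + 1) ^ (3 / 2 : ℂ) :=
    zeta_eq_tsum_one_div_nat_add_one_cpow (by norm_num)
  have hterm : ∀ r : ℕ, 1 / ((r : ℂ) + 1) ^ (3 / 2 : ℂ) =
      ((1 / Real.sqrt ((r : ℝ) + 1) ^ 3 : ℝ) : ℂ) := by
    intro r
    rw [← rpow_three_half (by positivity)]
    push_cast
    rw [Complex.ofReal_cpow (by positivity)]
    push_cast
    rfl
  have hsum : Summable (fun r : ℕ => 1 / Real.sqrt ((r : ℝ) + 1) ^ 3) := by
    have h2 : Summable (fun r : ℕ => 1 / ((r : ℝ)) ^ (3 / 2 : ℝ)) :=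
      Real.summable_one_div_nat_rpow.2 (by norm_num)
    have h3 := (summable_nat_add_iff 1).2 h2
    refine h3.congr fun r => ?_
    push_cast
    rw [rpow_three_half (by positivity)]
  simp only [hterm] at h1
  rw [h1, ← Complex.ofReal_tsum, Complex.ofReal_re]
  exact hsum.hasSum

/-- Abstract asymptotic step: a function `m ≤ S` satisfying the self-consistent bound
obeys the one-sided Bloch law. -/
theorem bloch_of_bound {S : ℝ} (hS : 0 < S) (m : ℝ → ℝ)
    (hm : ∀ β, 0 < β → ∀ q, 0 < q → q < m β → ∀ R : ℕ,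
      q * ∑ r ∈ Finset.range R, (bJ (((r : ℝ) + 1) * (β * (2 * S ^ 2)) / q)) ^ 3 ≤
        S * (S - m β))
    {c : ℝ} (hc : c < blochCoeff S) :
    ∀ᶠ β : ℝ in atTop, c < β ^ (3 / 2 : ℝ) * (S - m β) := by
  have hpi := Real.pi_pos
  -- choose `R`
  have hB : blochCoeff S = (riemannZeta (3 / 2)).re * (1 / (Real.sqrt (2 * Real.pi) ^ 3 *
      Real.sqrt (2 * S) ^ 3)) := by
    rw [blochCoeff, rpow_three_half hpi.le, rpow_three_half hS.le]
    have e : Real.sqrt (2 * Real.pi) ^ 3 * Real.sqrt (2 * S) ^ 3 =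
        8 * Real.sqrt Real.pi ^ 3 * Real.sqrt S ^ 3 := by
      rw [← mul_pow, ← Real.sqrt_mul (by positivity),
        show 2 * Real.pi * (2 * S) = 2 ^ 2 * (Real.pi * S) by ring,
        Real.sqrt_mul (by positivity), Real.sqrt_sq (by norm_num), Real.sqrt_mul hpi.le]
      ring
    rw [e]; ring
  have hR := zeta_hasSum.tendsto_sum_nat
  have hR' := hR.mul_const (1 / (Real.sqrt (2 * Real.pi) ^ 3 * Real.sqrt (2 * S) ^ 3))
  rw [← hB] at hR'
  obtain ⟨R, hRc⟩ := (hR'.eventually (lt_mem_nhds hc)).exists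
  set K : ℝ := (∑ r ∈ Finset.range R, 1 / Real.sqrt ((r : ℝ) + 1) ^ 3) *
    (1 / (Real.sqrt (2 * Real.pi) ^ 3 * Real.sqrt (2 * S) ^ 3)) with hK
  -- choose `s`
  have hφ : Tendsto (fun s : ℝ => K * s ^ 4 * Real.sqrt s ^ 3) (𝓝[<] 1) (𝓝 K) := by
    have hc1 : Continuous (fun s : ℝ => K * s ^ 4 * Real.sqrt s ^ 3) := by fun_prop
    have := (hc1.tendsto 1).mono_left (nhdsWithin_le_nhds (s := Set.Iio 1))
    simpa using this
  have hpos : ∀ᶠ s : ℝ in 𝓝[<] 1, 0 < s :=
    mem_nhdsWithin_of_mem_nhds (lt_mem_nhds one_pos)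
  obtain ⟨s, hs1, hs2, hs3⟩ := ((hφ.eventually (lt_mem_nhds hRc)).and
    (hpos.and self_mem_nhdsWithin)).exists
  have hs3 : s < 1 := hs3
  -- asymptotics of `J`
  have hc0 : s * (Real.sqrt (2 * Real.pi))⁻¹ < (Real.sqrt (2 * Real.pi))⁻¹ := by
    have : 0 < (Real.sqrt (2 * Real.pi))⁻¹ := by positivity
    nlinarith
  have hJ := bJ_asymp hc0
  have hJr : ∀ r ∈ Finset.range R, ∀ᶠ β : ℝ in atTop, s * (Real.sqrt (2 * Real.pi))⁻¹ ≤
      Real.sqrt ((((r : ℝ) + 1) * (2 * S) / s) * β) * bJ ((((r : ℝ) + 1) * (2 * S) / s) * β) := by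
    intro r _
    have : Tendsto (fun β : ℝ => (((r : ℝ) + 1) * (2 * S) / s) * β) atTop atTop :=
      Tendsto.const_mul_atTop (by positivity) tendsto_id
    exact this.eventually hJ
  have hJall := (Finset.eventually_all (Finset.range R)).2 hJr
  have hlarge : ∀ᶠ β : ℝ in atTop, c < β ^ (3 / 2 : ℝ) * (S * (1 - s)) := by
    have : Tendsto (fun β : ℝ => β ^ (3 / 2 : ℝ) * (S * (1 - s))) atTop atTop :=
      Tendsto.atTop_mul_const (mul_pos hS (by linarith)) (tendsto_rpow_atTop (by norm_num))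
    exact this.eventually_gt_atTop c
  filter_upwards [hJall, hlarge, eventually_gt_atTop 0] with β h1 h2 hβ
  rcases le_or_gt (m β) (s * S) with hle | hgt
  · refine h2.trans_le (mul_le_mul_of_nonneg_left ?_ (by positivity))
    linarith
  · have hb := hm β hβ (s * S) (by positivity) hgt R
    have hsb : 0 < Real.sqrt β := Real.sqrt_pos.2 hβ
    rw [rpow_three_half hβ.le]
    -- termwise bound
    have hterm : ∀ r ∈ Finset.range R, s ^ 3 * Real.sqrt s ^ 3 * (1 / (Real.sqrt (2 * Real.pi) ^ 3 *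
        Real.sqrt (2 * S) ^ 3)) * (1 / Real.sqrt ((r : ℝ) + 1) ^ 3) ≤
        Real.sqrt β ^ 3 * (bJ (((r : ℝ) + 1) * (β * (2 * S ^ 2)) / (s * S))) ^ 3 := by
      intro r hr
      have h3 := h1 r hr
      have e1 : ((r : ℝ) + 1) * (β * (2 * S ^ 2)) / (s * S) = ((r : ℝ) + 1) * (2 * S) / s * β := by
        field_simp
      rw [e1]
      set J := bJ (((r : ℝ) + 1) * (2 * S) / s * β) with hJdef
      have e2 : Real.sqrt (((r : ℝ) + 1) * (2 * S) / s * β) =
          Real.sqrt ((r : ℝ) + 1) * Real.sqrt (2 * S) / Real.sqrt s * Real.sqrt β := by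
        rw [Real.sqrt_mul (by positivity), Real.sqrt_div (by positivity),
          Real.sqrt_mul (by positivity)]
      rw [e2] at h3
      have hss : 0 < Real.sqrt s := Real.sqrt_pos.2 hs2
      have hsr : 0 < Real.sqrt ((r : ℝ) + 1) := Real.sqrt_pos.2 (by positivity)
      have hs2S : 0 < Real.sqrt (2 * S) := Real.sqrt_pos.2 (by positivity)
      have hs2p : 0 < Real.sqrt (2 * Real.pi) := Real.sqrt_pos.2 (by positivity)
      have h4 : s * Real.sqrt s * (1 / (Real.sqrt (2 * Real.pi) * Real.sqrt (2 * S))) *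
          (1 / Real.sqrt ((r : ℝ) + 1)) ≤ Real.sqrt β * J := by
        have h5 := mul_le_mul_of_nonneg_left h3 (a := Real.sqrt s / (Real.sqrt ((r : ℝ) + 1) *
          Real.sqrt (2 * S))) (by positivity)
        refine le_trans (le_of_eq ?_) (h5.trans (le_of_eq ?_))
        · field_simp
        · field_simp
      have h6 := pow_le_pow_left₀ (by positivity) h4 3
      refine le_trans (le_of_eq ?_) (h6.trans (le_of_eq ?_))
      · field_simp
      · ring
    have hsum := Finset.sum_le_sum hterm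
    rw [← Finset.mul_sum, ← Finset.mul_sum] at hsum
    have hfin : K * s ^ 4 * Real.sqrt s ^ 3 ≤ Real.sqrt β ^ 3 * (S - m β) := by
      have h7 : Real.sqrt β ^ 3 * (s * S * ∑ r ∈ Finset.range R,
          (bJ (((r : ℝ) + 1) * (β * (2 * S ^ 2)) / (s * S))) ^ 3) ≤
          Real.sqrt β ^ 3 * (S * (S - m β)) := mul_le_mul_of_nonneg_left hb (by positivity)
      have h8 : S * (K * s ^ 4 * Real.sqrt s ^ 3) ≤ S * (Real.sqrt β ^ 3 * (S - m β)) := by
        calc S * (K * s ^ 4 * Real.sqrt s ^ 3)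
            = s * S * (s ^ 3 * Real.sqrt s ^ 3 * (1 / (Real.sqrt (2 * Real.pi) ^ 3 *
        Real.sqrt (2 * S) ^ 3)) * ∑ r ∈ Finset.range R, (1 / Real.sqrt ((r : ℝ) + 1) ^ 3)) := by
              rw [hK]; ring
          _ ≤ s * S * (Real.sqrt β ^ 3 * ∑ r ∈ Finset.range R,
                (bJ (((r : ℝ) + 1) * (β * (2 * S ^ 2)) / (s * S))) ^ 3) :=
              mul_le_mul_of_nonneg_left hsum (by positivity)
          _ = Real.sqrt β ^ 3 * (s * S * ∑ r ∈ Finset.range R,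
                (bJ (((r : ℝ) + 1) * (β * (2 * S ^ 2)) / (s * S))) ^ 3) := by ring
          _ ≤ Real.sqrt β ^ 3 * (S * (S - m β)) := h7
          _ = _ := by ring
      exact le_of_mul_le_mul_left h8 hS
    exact hs1.trans_le hfin

end Vale.Agent.P361.H
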