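import Vale.Agent.P361.H.Bessel

namespace Vale.Agent.P361.H

open MeasureTheory Filter Topology

/-- The Brillouin zone `[-π, π]³`. -/
def cube : Set (Fin 3 → ℝ) := Set.univ.pi fun _ => Set.Icc (-Real.pi) Real.pi

lemma integral_symm (t : ℝ) :
    ∫ θ in Set.Icc (-Real.pi) Real.pi, Real.exp (-t * (1 - Real.cos θ)) = 2 * Real.pi * bJ t := by
  have hpi := Real.pi_pos
  rw [integral_Icc_eq_integral_Ioc, ← intervalIntegral.integral_of_le (by linarith)]
  have hint : ∀ a b : ℝ, IntervalIntegrable (fun θ => Real.exp (-t * (1 - Real.cos θ))) volume a b :=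
    fun a b => Continuous.intervalIntegrable (by fun_prop) _ _
  rw [← intervalIntegral.integral_add_adjacent_intervals (hint (-Real.pi) 0) (hint 0 Real.pi)]
  have h1 : ∫ θ in (-Real.pi)..0, Real.exp (-t * (1 - Real.cos θ)) =
      ∫ θ in (0 : ℝ)..Real.pi, Real.exp (-t * (1 - Real.cos θ)) := by
    have := intervalIntegral.integral_comp_neg (a := 0) (b := Real.pi)
      (fun θ => Real.exp (-t * (1 - Real.cos θ)))
    simp only [Real.cos_neg, neg_zero] at this
    exact this.symm
  rw [h1, bJ]
  field_simp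
  ring

lemma cube_measure : (volume : Measure (Fin 3 → ℝ)).restrict cube =
    Measure.pi (fun _ : Fin 3 => (volume : Measure ℝ).restrict (Set.Icc (-Real.pi) Real.pi)) := by
  rw [cube, volume_pi, Measure.restrict_pi_pi]

lemma integral_cube_exp (t : ℝ) :
    ∫ k in cube, Real.exp (-t * ∑ j, (1 - Real.cos (k j))) = (2 * Real.pi * bJ t) ^ 3 := by
  rw [cube_measure]
  have h1 : ∀ k : Fin 3 → ℝ, Real.exp (-t * ∑ j, (1 - Real.cos (k j))) =
      ∏ j, Real.exp (-t * (1 - Real.cos (k j))) := by
    intro k; rw [Finset.mul_sum, Real.exp_sum]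
  simp only [h1]
  rw [integral_fintype_prod_eq_pow (fun θ => Real.exp (-t * (1 - Real.cos θ))), integral_symm]
  simp

lemma integrable_cube_exp (t : ℝ) :
    IntegrableOn (fun k : Fin 3 → ℝ => Real.exp (-t * ∑ j, (1 - Real.cos (k j)))) cube := by
  have hc : Continuous (fun k : Fin 3 → ℝ => Real.exp (-t * ∑ j, (1 - Real.cos (k j)))) := by
    fun_prop
  refine hc.continuousOn.integrableOn_compact ?_
  exact isCompact_univ_pi fun _ => isCompact_Icc

/-- Series expansion of the Bose factor: convergence of the partial sums. -/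
lemma bose_tendsto {y : ℝ} (hy : 0 < y) :
    Tendsto (fun R : ℕ => ∑ r ∈ Finset.range R, Real.exp (-(((r : ℝ) + 1) * y))) atTop
      (𝓝 (1 / (Real.exp y - 1))) := by
  have h1 : 0 < Real.exp y - 1 := by have := Real.add_one_lt_exp hy.ne'; linarith
  have h2 : ∀ R : ℕ, ∑ r ∈ Finset.range R, Real.exp (-(((r : ℝ) + 1) * y)) =
      (1 - Real.exp (-y) ^ R) / (Real.exp y - 1) := by
    intro R
    rw [eq_div_iff h1.ne']
    induction R with
    | zero => simp
    | succ R ih =>
      rw [Finset.sum_range_succ, add_mul, ih, mul_sub, ← Real.exp_add]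
      rw [← Real.exp_nat_mul, ← Real.exp_nat_mul]
      push_cast
      have e1 : -(((R : ℝ) + 1) * y) + y = (R : ℝ) * (-y) := by ring
      have e2 : -(((R : ℝ) + 1) * y) = ((R : ℝ) + 1) * (-y) := by ring
      rw [e1, e2]; ring
  simp only [h2]
  have h3 : Tendsto (fun R : ℕ => Real.exp (-y) ^ R) atTop (𝓝 0) :=
    tendsto_pow_atTop_nhds_zero_of_lt_one (Real.exp_pos _).le (Real.exp_lt_one_iff.2 (by linarith))
  have h4 := (tendsto_const_nhds (x := (1 : ℝ))).sub h3
  rw [sub_zero] at h4
  exact h4.div_const _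

/-- Passage from the truncated series to the integral of the Bose factor. -/
theorem integral_bose_le {a b C : ℝ} (ha : 0 < a) (hb : 0 ≤ b)
    (hC : ∀ R : ℕ, ∑ r ∈ Finset.range R, Real.exp (-(((r : ℝ) + 1) * b)) *
      (bJ (((r : ℝ) + 1) * a)) ^ 3 ≤ C) :
    IntegrableOn (fun k : Fin 3 → ℝ =>
      1 / (Real.exp (a * ∑ j, (1 - Real.cos (k j)) + b) - 1)) cube ∧
    ((2 * Real.pi) ^ 3)⁻¹ * ∫ k in cube,
      1 / (Real.exp (a * ∑ j, (1 - Real.cos (k j)) + b) - 1) ≤ C := by
  have hpi := Real.pi_pos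
  set D : (Fin 3 → ℝ) → ℝ := fun k => ∑ j, (1 - Real.cos (k j)) with hD
  have hD0 : ∀ k, 0 ≤ D k := fun k => Finset.sum_nonneg fun j _ => by
    have := Real.cos_le_one (k j); linarith
  have hDc : Continuous D := by rw [hD]; fun_prop
  set g : ℕ → (Fin 3 → ℝ) → ℝ := fun R k =>
    ∑ r ∈ Finset.range R, Real.exp (-(((r : ℝ) + 1) * (a * D k + b))) with hg
  set f : (Fin 3 → ℝ) → ℝ := fun k => 1 / (Real.exp (a * D k + b) - 1) with hf
  have hgc : ∀ R, Continuous (g R) := fun R => by
    rw [hg]; fun_prop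
  have hg0 : ∀ R k, 0 ≤ g R k := fun R k => Finset.sum_nonneg fun r _ => (Real.exp_pos _).le
  have hf0 : ∀ k, 0 ≤ f k := by
    intro k
    have h1 : 0 ≤ a * D k + b := by have := hD0 k; positivity
    have h2 : 1 ≤ Real.exp (a * D k + b) := Real.one_le_exp h1
    exact div_nonneg zero_le_one (by linarith)
  have hfm : Measurable f := by
    rw [hf]
    exact measurable_const.div ((Real.continuous_exp.comp
      ((continuous_const.mul hDc).add continuous_const)).measurable.sub measurable_const)
  -- integrals of partial sums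
  have hgint : ∀ R, ∫ k in cube, g R k = (2 * Real.pi) ^ 3 *
      ∑ r ∈ Finset.range R, Real.exp (-(((r : ℝ) + 1) * b)) * (bJ (((r : ℝ) + 1) * a)) ^ 3 := by
    intro R
    simp only [hg]
    rw [integral_finsetSum, Finset.mul_sum]
    · refine Finset.sum_congr rfl fun r _ => ?_
      have e : ∀ k, Real.exp (-(((r : ℝ) + 1) * (a * D k + b))) =
          Real.exp (-(((r : ℝ) + 1) * b)) * Real.exp (-(((r : ℝ) + 1) * a) * D k) := by
        intro k; rw [← Real.exp_add]; congr 1; ring
      simp only [e]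
      rw [integral_const_mul]
      have := integral_cube_exp (((r : ℝ) + 1) * a)
      simp only [hD]
      rw [this]; ring
    · intro r _
      have : Continuous (fun k => Real.exp (-(((r : ℝ) + 1) * (a * D k + b)))) := by fun_prop
      exact (this.continuousOn.integrableOn_compact (isCompact_univ_pi fun _ => isCompact_Icc))
  have hgI : ∀ R, IntegrableOn (g R) cube := fun R =>
    (hgc R).continuousOn.integrableOn_compact (isCompact_univ_pi fun _ => isCompact_Icc)
  have hC' : ∀ R, ∫ k in cube, g R k ≤ (2 * Real.pi) ^ 3 * C := by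
    intro R
    rw [hgint]
    exact mul_le_mul_of_nonneg_left (hC R) (by positivity)
  have hC0 : 0 ≤ (2 * Real.pi) ^ 3 * C := by
    have := hC' 0
    simp only [hg, Finset.range_zero, Finset.sum_empty, integral_zero] at this
    exact this
  -- a.e. convergence
  have hae : ∀ᵐ k ∂(volume.restrict cube), Tendsto (fun R => ENNReal.ofReal (g R k)) atTop
      (𝓝 (ENNReal.ofReal (f k))) := by
    have h0 : ∀ᵐ k : Fin 3 → ℝ ∂(volume.restrict cube), k 0 ≠ 0 := by
      refine ae_restrict_of_ae ?_
      rw [volume_pi]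
      exact Measure.ae_eval_ne (fun _ => (volume : Measure ℝ)) 0 0
    have hmem : ∀ᵐ k : Fin 3 → ℝ ∂(volume.restrict cube), k ∈ cube :=
      ae_restrict_mem (MeasurableSet.univ_pi fun _ => measurableSet_Icc)
    filter_upwards [h0, hmem] with k hk hkc
    have hDpos : 0 < D k := by
      have h1 : 0 < 1 - Real.cos (k 0) := by
        have hk0 := hkc 0 (Set.mem_univ _)
        have h2 : Real.cos (k 0) ≠ 1 := by
          intro h
          have h3 := (Real.cos_eq_one_iff_of_lt_of_lt (by linarith [hk0.1]) (by linarith [hk0.2])).1 h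
          exact hk h3
        have := lt_of_le_of_ne (Real.cos_le_one (k 0)) h2
        linarith
      refine Finset.sum_pos' (fun j _ => ?_) ⟨0, Finset.mem_univ _, h1⟩
      have := Real.cos_le_one (k j); linarith
    have hy : 0 < a * D k + b := by positivity
    exact (ENNReal.continuous_ofReal.tendsto _).comp (bose_tendsto hy)
  have hmono : ∀ᵐ k ∂(volume.restrict cube), Monotone fun R => ENNReal.ofReal (g R k) := by
    refine Eventually.of_forall fun k => monotone_nat_of_le_succ fun R => ?_
    refine ENNReal.ofReal_le_ofReal ?_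
    simp only [hg]
    rw [Finset.sum_range_succ]
    have := (Real.exp_pos (-(((R : ℝ) + 1) * (a * D k + b)))).le
    linarith
  have hlim := lintegral_tendsto_of_tendsto_of_monotone
    (fun R => ((hgc R).measurable.ennreal_ofReal).aemeasurable) hmono hae
  have hle : ∫⁻ k in cube, ENNReal.ofReal (f k) ≤ ENNReal.ofReal ((2 * Real.pi) ^ 3 * C) := by
    refine le_of_tendsto hlim (Eventually.of_forall fun R => ?_)
    rw [← ofReal_integral_eq_lintegral_ofReal (hgI R) (Eventually.of_forall fun k => hg0 R k)]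
    exact ENNReal.ofReal_le_ofReal (hC' R)
  have hfI : IntegrableOn f cube := by
    refine ⟨hfm.aestronglyMeasurable, ?_⟩
    rw [hasFiniteIntegral_iff_ofReal (Eventually.of_forall hf0)]
    exact hle.trans_lt ENNReal.ofReal_lt_top
  refine ⟨hfI, ?_⟩
  have hint : ∫ k in cube, f k ≤ (2 * Real.pi) ^ 3 * C := by
    rw [integral_eq_lintegral_of_nonneg_ae (Eventually.of_forall hf0) hfm.aestronglyMeasurable]
    exact ENNReal.toReal_le_of_le_ofReal hC0 hle
  have h8 : 0 < ((2 * Real.pi) ^ 3)⁻¹ := by positivity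
  calc ((2 * Real.pi) ^ 3)⁻¹ * ∫ k in cube, f k
      ≤ ((2 * Real.pi) ^ 3)⁻¹ * ((2 * Real.pi) ^ 3 * C) := mul_le_mul_of_nonneg_left hint h8.le
    _ = C := by rw [← mul_assoc, inv_mul_cancel₀ (by positivity), one_mul]

end Vale.Agent.P361.H
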