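import Vale.Agent.P361.H.Bound
import Vale.Agent.P361.H.Bessel

namespace Vale.Agent.P361.H

open Matrix Filter Topology

variable {n : ℕ}

lemma finPressure_eq (Λ : Finset Site) (β h : ℝ) :
    finPressure n Λ β h = (β * Λ.card)⁻¹ * Real.log (partZ n Λ β h) := rfl

/-- Peierls–Bogoliubov for the field dependence. -/
lemma log_partZ_le (Λ : Finset Site) (β h h' : ℝ) :
    Real.log (partZ n Λ β h) + β * (h' - h) * (tr n Λ β h (magnetization n Λ) / partZ n Λ β h) ≤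
      Real.log (partZ n Λ β h') := by
  have h1 := peierls_bogoliubov (expo n Λ β h) (expo n Λ β h') (expo_isHermitian β h)
    (expo_isHermitian β h')
  have e : expo n Λ β h' - expo n Λ β h = ((β * (h' - h) : ℝ) : ℂ) • magnetization n Λ := by
    unfold expo; push_cast; module
  rw [e] at h1
  change Real.log (partZ n Λ β h) + tr n Λ β h (((β * (h' - h) : ℝ) : ℂ) • magnetization n Λ) /
    partZ n Λ β h ≤ Real.log (partZ n Λ β h') at h1
  rw [tr_smul, mul_div_assoc] at h1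
  exact h1

lemma mag_ge (N : ℕ) {β h₀ h : ℝ} (hβ : 0 < β) (hh : h₀ < h) :
    (finPressure n (box N) β h - finPressure n (box N) β h₀) / (h - h₀) ≤
      mag n (box N) β h := by
  have hZ : 0 < partZ n (box N) β h := partZ_pos β h
  have hV : 0 < ((box N).card : ℝ) := by rw [card_box]; positivity
  have hd : 0 < h - h₀ := sub_pos.2 hh
  have h1 := log_partZ_le (n := n) (box N) β h h₀
  rw [finPressure_eq, finPressure_eq, div_le_iff₀ hd, ← mul_sub, mag]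
  rw [inv_mul_le_iff₀ (by positivity)]
  have e : β * (h₀ - h) * (tr n (box N) β h (magnetization n (box N)) / partZ n (box N) β h) =
    -(β * ((box N).card : ℝ) * (tr n (box N) β h (magnetization n (box N)) /
      (((box N).card : ℝ) * partZ n (box N) β h) * (h - h₀))) := by
    field_simp; ring
  rw [e] at h1
  linarith

/-- Product structure of the momentum sum. -/
lemma sum_box_exp (N : ℕ) (t : ℝ) :
    ∑ l ∈ box N, Real.exp (-t * disp N l) =
      (∑ l ∈ Finset.Icc (-(N : ℤ)) N,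
        Real.exp (-t * (1 - Real.cos (2 * Real.pi / (2 * N + 1) * (l : ℝ))))) ^ 3 := by
  have h1 : ∀ l : Site, Real.exp (-t * disp N l) =
      ∏ j, Real.exp (-t * (1 - Real.cos (2 * Real.pi / (2 * N + 1) * ((l j : ℤ) : ℝ)))) := by
    intro l
    rw [disp, Finset.mul_sum, Real.exp_sum]; rfl
  simp only [h1]
  rw [box_eq, ← Finset.prod_univ_sum (fun _ : Fin 3 => Finset.Icc (-(N : ℤ)) N)
    (fun _ l => Real.exp (-t * (1 - Real.cos (2 * Real.pi / (2 * N + 1) * (l : ℝ)))))]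
  simp

lemma sum_box_lower (N : ℕ) {t : ℝ} (ht : 0 ≤ t) :
    (max (bJ t - (2 * N + 1 : ℝ)⁻¹) 0) ^ 3 ≤
      ((2 * N + 1 : ℝ) ^ 3)⁻¹ * ∑ l ∈ box N, Real.exp (-t * disp N l) := by
  rw [sum_box_exp, ← inv_pow, ← mul_pow]
  refine pow_le_pow_left₀ (le_max_right _ _) ?_ 3
  refine max_le (riemann_lower N t ht) ?_
  exact mul_nonneg (by positivity) (Finset.sum_nonneg fun l _ => (Real.exp_pos _).le)

lemma series_lower (N R : ℕ) {β h q μ S : ℝ} (hβ : 0 < β) (hh : 0 < h) (hq : 0 < q)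
    (hμ : q ≤ μ) (hS : 0 ≤ S) :
    q * ∑ r ∈ Finset.range R, Real.exp (-(((r : ℝ) + 1) * (β * h))) *
      (max (bJ (((r : ℝ) + 1) * (β * S) / q) - (2 * N + 1 : ℝ)⁻¹) 0) ^ 3 ≤
    μ * (((2 * N + 1 : ℝ) ^ 3)⁻¹ * ∑ l ∈ box N,
      1 / (Real.exp (β * (S * disp N l / μ + h)) - 1)) := by
  have hμ0 : 0 < μ := hq.trans_le hμ
  have hV : 0 < ((2 * N + 1 : ℝ) ^ 3)⁻¹ := by positivity
  have hy : ∀ l, 0 < β * (S * disp N l / μ + h) := by
    intro l
    have := disp_nonneg N l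
    positivity
  have h1 : ∀ r : ℕ, Real.exp (-(((r : ℝ) + 1) * (β * h))) *
      (max (bJ (((r : ℝ) + 1) * (β * S) / q) - (2 * N + 1 : ℝ)⁻¹) 0) ^ 3 ≤
      ((2 * N + 1 : ℝ) ^ 3)⁻¹ * ∑ l ∈ box N,
        Real.exp (-(((r : ℝ) + 1) * (β * (S * disp N l / μ + h)))) := by
    intro r
    have ht : 0 ≤ ((r : ℝ) + 1) * (β * S) / q := by positivity
    refine (mul_le_mul_of_nonneg_left (sum_box_lower N ht) (Real.exp_pos _).le).trans ?_
    rw [← mul_assoc, mul_comm (Real.exp _), mul_assoc, Finset.mul_sum]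
    refine mul_le_mul_of_nonneg_left (Finset.sum_le_sum fun l _ => ?_) hV.le
    rw [← Real.exp_add]
    refine Real.exp_le_exp.2 ?_
    have hD := disp_nonneg N l
    have hdiv : S * disp N l / μ ≤ S * disp N l / q :=
      div_le_div_of_nonneg_left (mul_nonneg hS hD) hq hμ
    have h2 : ((r : ℝ) + 1) * β * (S * disp N l / μ) ≤ ((r : ℝ) + 1) * β * (S * disp N l / q) :=
      mul_le_mul_of_nonneg_left hdiv (by positivity)
    have e1 : -(((r : ℝ) + 1) * (β * h)) + -(((r : ℝ) + 1) * (β * S) / q) * disp N l =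
      -(((r : ℝ) + 1) * (β * h)) - ((r : ℝ) + 1) * β * (S * disp N l / q) := by ring
    have e2 : -(((r : ℝ) + 1) * (β * (S * disp N l / μ + h))) =
      -(((r : ℝ) + 1) * (β * h)) - ((r : ℝ) + 1) * β * (S * disp N l / μ) := by ring
    rw [e1, e2]
    linarith
  have h3 : ∑ r ∈ Finset.range R, Real.exp (-(((r : ℝ) + 1) * (β * h))) *
      (max (bJ (((r : ℝ) + 1) * (β * S) / q) - (2 * N + 1 : ℝ)⁻¹) 0) ^ 3 ≤
      ((2 * N + 1 : ℝ) ^ 3)⁻¹ * ∑ l ∈ box N, 1 / (Real.exp (β * (S * disp N l / μ + h)) - 1) := by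
    refine (Finset.sum_le_sum fun r _ => h1 r).trans ?_
    rw [← Finset.mul_sum, Finset.sum_comm]
    refine mul_le_mul_of_nonneg_left (Finset.sum_le_sum fun l _ => ?_) hV.le
    exact geom_le (hy l) R
  exact mul_le_mul hμ h3 (Finset.sum_nonneg fun r _ =>
    mul_nonneg (Real.exp_pos _).le (pow_nonneg (le_max_right _ _) 3)) hμ0.le

lemma finite_bound' (n N R : ℕ) {β h q : ℝ} (hβ : 0 < β) (hh : 0 < h) (hq : 0 < q)
    (hμ : q ≤ mag n (box N) β h) :
    q * ∑ r ∈ Finset.range R, Real.exp (-(((r : ℝ) + 1) * (β * h))) *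
      (max (bJ (((r : ℝ) + 1) * (β * (2 * ((n : ℝ) / 2) ^ 2)) / q) - (2 * N + 1 : ℝ)⁻¹) 0) ^ 3 ≤
    (n : ℝ) / 2 * ((n : ℝ) / 2 - mag n (box N) β h) :=
  (series_lower N R hβ hh hq hμ (mul_nonneg two_pos.le (sq_nonneg _))).trans
    (finite_bound n N hβ (hq.trans_le hμ))

/-- Infinite-volume bound: `m` is any lower bound for the slopes of the pressure to the right
of `h₀ ≥ 0`. -/
theorem limit_bound (n R : ℕ) {β : ℝ} (hβ : 0 < β) (p : ℝ → ℝ)
    (hp : ∀ h, Tendsto (fun N => finPressure n (box N) β h) atTop (𝓝 (p h))) (m : ℝ)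
    {h₀ : ℝ} (hh₀ : 0 ≤ h₀)
    (hm : ∀ h, h₀ < h → m ≤ (p h - p h₀) / (h - h₀)) {q : ℝ} (hq : 0 < q) (hqm : q < m) :
    q * ∑ r ∈ Finset.range R, Real.exp (-(((r : ℝ) + 1) * (β * h₀))) *
      (bJ (((r : ℝ) + 1) * (β * (2 * ((n : ℝ) / 2) ^ 2)) / q)) ^ 3 ≤
    (n : ℝ) / 2 * ((n : ℝ) / 2 - m) := by
  have hinv : Tendsto (fun N : ℕ => (2 * (N : ℝ) + 1)⁻¹) atTop (𝓝 0) := by
    refine tendsto_inv_atTop_zero.comp ?_
    refine tendsto_atTop_add_const_right _ _ ?_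
    exact Tendsto.const_mul_atTop two_pos tendsto_natCast_atTop_atTop
  have step : ∀ h, h₀ < h → q * ∑ r ∈ Finset.range R, Real.exp (-(((r : ℝ) + 1) * (β * h))) *
      (bJ (((r : ℝ) + 1) * (β * (2 * ((n : ℝ) / 2) ^ 2)) / q)) ^ 3 ≤
      (n : ℝ) / 2 * ((n : ℝ) / 2 - m) := by
    intro h hh
    have hdiff : Tendsto (fun N => (finPressure n (box N) β h - finPressure n (box N) β h₀) /
        (h - h₀)) atTop (𝓝 ((p h - p h₀) / (h - h₀))) := ((hp h).sub (hp h₀)).div_const _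
    have hge : m ≤ (p h - p h₀) / (h - h₀) := hm h hh
    have hev : ∀ᶠ N : ℕ in atTop,
        q < (finPressure n (box N) β h - finPressure n (box N) β h₀) / (h - h₀) :=
      hdiff.eventually (lt_mem_nhds (hqm.trans_le hge))
    have hL : Tendsto (fun N : ℕ => q * ∑ r ∈ Finset.range R,
        Real.exp (-(((r : ℝ) + 1) * (β * h))) *
        (max (bJ (((r : ℝ) + 1) * (β * (2 * ((n : ℝ) / 2) ^ 2)) / q) - (2 * N + 1 : ℝ)⁻¹) 0) ^ 3)
        atTop (𝓝 (q * ∑ r ∈ Finset.range R, Real.exp (-(((r : ℝ) + 1) * (β * h))) *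
        (max (bJ (((r : ℝ) + 1) * (β * (2 * ((n : ℝ) / 2) ^ 2)) / q) - 0) 0) ^ 3)) := by
      refine Tendsto.const_mul _ (tendsto_finsetSum _ fun r _ => ?_)
      refine Tendsto.const_mul _ (Tendsto.pow ?_ 3)
      exact (tendsto_const_nhds.sub hinv).max tendsto_const_nhds
    have hR : Tendsto (fun N : ℕ => (n : ℝ) / 2 * ((n : ℝ) / 2 -
        (finPressure n (box N) β h - finPressure n (box N) β h₀) / (h - h₀))) atTop
        (𝓝 ((n : ℝ) / 2 * ((n : ℝ) / 2 - (p h - p h₀) / (h - h₀)))) :=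
      Tendsto.const_mul _ (tendsto_const_nhds.sub hdiff)
    have hle := le_of_tendsto_of_tendsto hL hR (by
      filter_upwards [hev] with N hN
      have h1 := mag_ge (n := n) N hβ hh
      refine (finite_bound' n N R hβ (hh₀.trans_lt hh) hq (hN.le.trans h1)).trans ?_
      exact mul_le_mul_of_nonneg_left (by linarith) (by positivity))
    have hmax : ∀ r : ℕ, max (bJ (((r : ℝ) + 1) * (β * (2 * ((n : ℝ) / 2) ^ 2)) / q) - 0) 0 =
        bJ (((r : ℝ) + 1) * (β * (2 * ((n : ℝ) / 2) ^ 2)) / q) := by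
      intro r; rw [sub_zero, max_eq_left (bJ_nonneg _)]
    simp only [hmax] at hle
    refine hle.trans ?_
    exact mul_le_mul_of_nonneg_left (by linarith) (by positivity)
  have hlim : Tendsto (fun h : ℝ => q * ∑ r ∈ Finset.range R,
      Real.exp (-(((r : ℝ) + 1) * (β * h))) *
      (bJ (((r : ℝ) + 1) * (β * (2 * ((n : ℝ) / 2) ^ 2)) / q)) ^ 3) (𝓝[>] h₀)
      (𝓝 (q * ∑ r ∈ Finset.range R, Real.exp (-(((r : ℝ) + 1) * (β * h₀))) *
      (bJ (((r : ℝ) + 1) * (β * (2 * ((n : ℝ) / 2) ^ 2)) / q)) ^ 3)) := by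
    have hc : Continuous (fun h : ℝ => q * ∑ r ∈ Finset.range R,
      Real.exp (-(((r : ℝ) + 1) * (β * h))) *
      (bJ (((r : ℝ) + 1) * (β * (2 * ((n : ℝ) / 2) ^ 2)) / q)) ^ 3) := by fun_prop
    exact (hc.tendsto h₀).mono_left nhdsWithin_le_nhds
  exact le_of_tendsto hlim (by
    filter_upwards [self_mem_nhdsWithin] with h hh
    exact step h hh)

/-- The same with `q = m`. -/
theorem limit_bound_self (n R : ℕ) {β : ℝ} (hβ : 0 < β) (p : ℝ → ℝ)
    (hp : ∀ h, Tendsto (fun N => finPressure n (box N) β h) atTop (𝓝 (p h))) (m : ℝ)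
    {h₀ : ℝ} (hh₀ : 0 ≤ h₀)
    (hm : ∀ h, h₀ < h → m ≤ (p h - p h₀) / (h - h₀)) (hm0 : 0 < m) :
    m * ∑ r ∈ Finset.range R, Real.exp (-(((r : ℝ) + 1) * (β * h₀))) *
      (bJ (((r : ℝ) + 1) * (β * (2 * ((n : ℝ) / 2) ^ 2)) / m)) ^ 3 ≤
    (n : ℝ) / 2 * ((n : ℝ) / 2 - m) := by
  have hlim : Tendsto (fun q : ℝ => q * ∑ r ∈ Finset.range R,
      Real.exp (-(((r : ℝ) + 1) * (β * h₀))) *
      (bJ (((r : ℝ) + 1) * (β * (2 * ((n : ℝ) / 2) ^ 2)) / q)) ^ 3) (𝓝[<] m)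
      (𝓝 (m * ∑ r ∈ Finset.range R, Real.exp (-(((r : ℝ) + 1) * (β * h₀))) *
      (bJ (((r : ℝ) + 1) * (β * (2 * ((n : ℝ) / 2) ^ 2)) / m)) ^ 3)) := by
    refine Tendsto.mono_left ?_ nhdsWithin_le_nhds
    refine Tendsto.mul tendsto_id (tendsto_finsetSum _ fun r _ => ?_)
    refine Tendsto.const_mul _ (Tendsto.pow ?_ 3)
    exact (bJ_continuous.tendsto _).comp (tendsto_const_nhds.div tendsto_id hm0.ne')
  refine le_of_tendsto hlim ?_
  have h1 : ∀ᶠ q : ℝ in 𝓝[<] m, 0 < q := mem_nhdsWithin_of_mem_nhds (lt_mem_nhds hm0)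
  filter_upwards [h1, self_mem_nhdsWithin] with q hq hqm
  exact limit_bound n R hβ p hp m hh₀ hm hq hqm

end Vale.Agent.P361.H
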