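import Vale.Agent.P361.Mag
import Vale.Agent.P361.H.Limit
import Vale.Agent.P361.H.Asymp
import Vale.Agent.P361.H.Cube

namespace Vale.Agent.P361.H

open MeasureTheory Filter Topology

/-- Right derivative of the pressure at the field `h`. -/
noncomputable def magAt (n : ℕ) (β h : ℝ) : ℝ := derivWithin (pressure n β) (Set.Ioi h) h

lemma magAt_slope (n : ℕ) {β : ℝ} (hβ : 0 < β) (h₀ : ℝ) :
    ∀ h, h₀ < h → magAt n β h₀ ≤ (pressure n β h - pressure n β h₀) / (h - h₀) :=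
  fun _ hh => rightDeriv_le_slope' n hβ hh

/-- Series form of the bound at field `h₀ ≥ 0`. -/
theorem magAt_series (n R : ℕ) {β h₀ : ℝ} (hβ : 0 < β) (hh₀ : 0 ≤ h₀) (hm : 0 < magAt n β h₀) :
    magAt n β h₀ * ∑ r ∈ Finset.range R, Real.exp (-(((r : ℝ) + 1) * (β * h₀))) *
      (bJ (((r : ℝ) + 1) * (β * (2 * ((n : ℝ) / 2) ^ 2)) / magAt n β h₀)) ^ 3 ≤
    (n : ℝ) / 2 * ((n : ℝ) / 2 - magAt n β h₀) :=
  limit_bound_self n R hβ (pressure n β) (fun h => pressure_tendsto n hβ h) _ hh₀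
    (magAt_slope n hβ h₀) hm

/-- Integral form of the bound at field `h₀ ≥ 0`. -/
theorem magAt_integral {n : ℕ} (hn : 1 ≤ n) {β h₀ : ℝ} (hβ : 0 < β) (hh₀ : 0 ≤ h₀)
    (hm : 0 < magAt n β h₀) :
    IntegrableOn (fun k : Fin 3 → ℝ => 1 / (Real.exp (β * ((n : ℝ) / 2 / magAt n β h₀ *
      (2 * ((n : ℝ) / 2) * ∑ j, (1 - Real.cos (k j))) + h₀)) - 1)) cube ∧
    magAt n β h₀ / ((n : ℝ) / 2) * (((2 * Real.pi) ^ 3)⁻¹ * ∫ k in cube,
      1 / (Real.exp (β * ((n : ℝ) / 2 / magAt n β h₀ *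
        (2 * ((n : ℝ) / 2) * ∑ j, (1 - Real.cos (k j))) + h₀)) - 1)) ≤
      (n : ℝ) / 2 - magAt n β h₀ := by
  obtain ⟨m, hmdef⟩ : ∃ m, m = magAt n β h₀ := ⟨_, rfl⟩
  have hser := fun R => magAt_series n R hβ hh₀ hm
  rw [← hmdef] at hm hser ⊢
  clear hmdef
  have hS : 0 < (n : ℝ) / 2 := by
    have : (1 : ℝ) ≤ n := by exact_mod_cast hn
    linarith
  obtain ⟨S, hSdef⟩ : ∃ S : ℝ, S = (n : ℝ) / 2 := ⟨_, rfl⟩
  rw [← hSdef] at hS hser ⊢
  have key := integral_bose_le (a := β * (2 * S ^ 2) / m) (b := β * h₀)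
    (C := S * (S - m) / m) (by positivity) (by positivity) (by
      intro R
      rw [le_div_iff₀ hm, mul_comm]
      refine le_trans (le_of_eq ?_) (hser R)
      congr 1
      refine Finset.sum_congr rfl fun r _ => ?_
      congr 3
      ring)
  have e : ∀ k : Fin 3 → ℝ, β * (S / m * (2 * S * ∑ j, (1 - Real.cos (k j))) + h₀) =
      β * (2 * S ^ 2) / m * ∑ j, (1 - Real.cos (k j)) + β * h₀ := by
    intro k; ring
  simp only [e]
  refine ⟨key.1, ?_⟩
  have h2 := mul_le_mul_of_nonneg_left key.2 (a := m / S) (by positivity)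
  refine h2.trans (le_of_eq ?_)
  field_simp

theorem spontMag_le (n : ℕ) {β : ℝ} (hβ : 0 < β) (hn : 1 ≤ n) : spontMag n β ≤ (n : ℝ) / 2 := by
  have hS : 0 < (n : ℝ) / 2 := by
    have : (1 : ℝ) ≤ n := by exact_mod_cast hn
    linarith
  rcases le_or_gt (spontMag n β) 0 with h | h
  · linarith
  · have h1 := magAt_series n 0 hβ le_rfl (h₀ := 0) h
    simp only [Finset.range_zero, Finset.sum_empty, mul_zero] at h1
    have h2 := (mul_nonneg_iff_of_pos_left hS).1 h1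
    change 0 ≤ (n : ℝ) / 2 - spontMag n β at h2
    linarith

/-- One-sided Bloch law. -/
theorem one_sided_bloch {n : ℕ} (hn : 1 ≤ n) {c : ℝ} (hc : c < blochCoeff ((n : ℝ) / 2)) :
    ∀ᶠ β : ℝ in atTop, c < β ^ (3 / 2 : ℝ) * ((n : ℝ) / 2 - spontMag n β) := by
  have hS : 0 < (n : ℝ) / 2 := by
    have : (1 : ℝ) ≤ n := by exact_mod_cast hn
    linarith
  refine bloch_of_bound hS (spontMag n) ?_ hc
  intro β hβ q hq hqm R
  have h := limit_bound n R hβ (pressure n β) (fun h => pressure_tendsto n hβ h)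
    (spontMag n β) le_rfl (magAt_slope n hβ 0) hq hqm
  simpa using h

end Vale.Agent.P361.H
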