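import Vale.Agent.P361.H.Fourier

namespace Vale.Agent.P361.H

open Matrix

variable {n : ℕ}

/-- Local inequality `S⁻S⁺ ≤ n (n/2 - S³)`. -/
lemma local_raise_le (Λ : Finset Site) (x : Λ) (β h : ℝ) :
    tr n Λ β h (oM n x * oP n x) ≤
      (n : ℝ) * ((n : ℝ) / 2 * partZ n Λ β h - tr n Λ β h (oZ n x)) := by
  set X : Matrix (Fin (n + 1)) (Fin (n + 1)) ℂ :=
    Matrix.diagonal fun j => ((Real.sqrt (((j : ℕ) : ℝ) * (((j : ℕ) : ℝ) - 1)) : ℝ) : ℂ) with hX
  have hXX : Xᴴ * X = ((n : ℂ) * ((n : ℂ) / 2)) • (1 : Matrix _ _ ℂ) - (n : ℂ) • spinZ n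
      - spinLower n * (spinLower n)ᴴ := by
    rw [lower_raise, hX, Matrix.diagonal_conjTranspose, Matrix.diagonal_mul_diagonal, spinZ,
      ← Matrix.diagonal_one, ← Matrix.diagonal_smul, ← Matrix.diagonal_smul, Matrix.diagonal_sub,
      Matrix.diagonal_sub]
    congr 1
    ext j
    have h : 0 ≤ ((j : ℕ) : ℝ) * (((j : ℕ) : ℝ) - 1) := by
      rcases Nat.eq_zero_or_pos (j : ℕ) with h | h
      · rw [h]; simp
      · have : (1 : ℝ) ≤ ((j : ℕ) : ℝ) := by exact_mod_cast h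
        exact mul_nonneg (by positivity) (by linarith)
    simp only [Pi.star_apply, RCLike.star_def, Complex.conj_ofReal, Pi.smul_apply, smul_eq_mul,
      mul_one]
    rw [← Complex.ofReal_mul, Real.mul_self_sqrt h]
    push_cast; ring
  have h1 := tr_star_mul_nonneg (n := n) (Λ := Λ) β h (siteOp x X)
  rw [siteOp_conjTranspose, siteOp_mul, hXX, siteOp_sub, siteOp_sub, siteOp_smul, siteOp_smul,
    siteOp_one, ← siteOp_mul] at h1
  have e1 : ((n : ℂ) * ((n : ℂ) / 2)) = (((n : ℝ) * ((n : ℝ) / 2) : ℝ) : ℂ) := by push_cast; rfl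
  have e2 : (n : ℂ) = ((n : ℝ) : ℂ) := by push_cast; rfl
  rw [e1, e2, tr_sub, tr_sub, tr_smul, tr_smul, tr_one] at h1
  linarith

/-- Parseval. -/
lemma sum_mode (N : ℕ) :
    ∑ l ∈ box N, modeOp n (fun x : box N => wave N l x.1) *
      (modeOp n (fun x : box N => wave N l x.1))ᴴ =
      ((((2 * N + 1 : ℝ)) ^ 3 : ℝ) : ℂ) • ∑ x : box N, oM n x * oP n x := by
  have h1 : ∀ l, modeOp n (fun x : box N => wave N l x.1) *
      (modeOp n (fun x : box N => wave N l x.1))ᴴ =
      ∑ x : box N, ∑ y : box N, (wave N l x.1 * star (wave N l y.1)) • (oM n x * oP n y) := by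
    intro l
    rw [modeOp_conj, modeOp, Finset.sum_mul_sum]
    refine Finset.sum_congr rfl fun x _ => Finset.sum_congr rfl fun y _ => ?_
    rw [smul_mul_smul_comm]
  simp only [h1]
  rw [Finset.sum_comm, Finset.smul_sum]
  refine Finset.sum_congr rfl fun x _ => ?_
  rw [Finset.sum_comm]
  simp only [← Finset.sum_smul]
  rw [Finset.sum_eq_single x]
  · rw [wave_orthog N x.2 x.2, if_pos rfl]
    congr 1
    push_cast; rfl
  · intro y _ hyx
    rw [wave_orthog N x.2 y.2, if_neg (fun h => hyx (Subtype.ext h.symm)), zero_smul]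
  · simp

/-- Mean magnetization per site `⟨M⟩ / |Λ|`. -/
noncomputable def mag (n : ℕ) (Λ : Finset Site) (β h : ℝ) : ℝ :=
  tr n Λ β h (magnetization n Λ) / (Λ.card * partZ n Λ β h)

lemma tr_mag (n N : ℕ) (β h : ℝ) : tr n (box N) β h (magnetization n (box N)) =
    mag n (box N) β h * ((box N).card * partZ n (box N) β h) := by
  rw [mag, div_mul_cancel₀]
  have h1 := partZ_pos (n := n) (Λ := box N) β h
  have h2 : 0 < ((box N).card : ℝ) := by rw [card_box]; positivity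
  positivity

lemma exp_arith (β S D V Z μ h : ℝ) (hV : 0 < V) (hZ : 0 < Z) (hμ : 0 < μ) :
    β * (S * (V * (4 * D)) * Z + h * (2 * μ * (V * Z))) / (2 * μ * (V * Z)) =
      β * (2 * S * D / μ + h) := by
  field_simp; ring

lemma mode_bound_aux (β h S V Z μ D P Q C X : ℝ) (hV : 0 < V) (hZ : 0 < Z)
    (hμ : 0 < μ) (hβ : 0 < β) (hS : 0 ≤ S)
    (hPQ : P - Q = 2 * μ * (V * Z)) (hQ : 0 < Q) (hls : (P - Q) * Real.log (P / Q) ≤ C)
    (hC : C ≤ β * (S * X * Z + h * (2 * μ * (V * Z)))) (hX : X ≤ V * (4 * D)) :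
    2 * μ * (V * Z) / (Real.exp (β * (2 * S * D / μ + h)) - 1) ≤ Q := by
  have hbpos : 0 < 2 * μ * (V * Z) := by positivity
  have hC2 : C ≤ β * (S * (V * (4 * D)) * Z + h * (2 * μ * (V * Z))) := by
    refine hC.trans ?_
    refine mul_le_mul_of_nonneg_left ?_ hβ.le
    refine add_le_add_left ?_ _
    refine mul_le_mul_of_nonneg_right ?_ hZ.le
    exact mul_le_mul_of_nonneg_left hX hS
  have hlow := lower_of_logsum P Q _ hQ.le (by rw [hPQ]; exact hbpos) (hls.trans hC2) hQ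
  rw [hPQ, exp_arith β S D V Z μ h hV hZ hμ] at hlow
  exact hlow

lemma mode_bound (N : ℕ) {β h : ℝ} (hβ : 0 < β) (hμ : 0 < mag n (box N) β h) (l : Site) :
    2 * mag n (box N) β h * ((box N).card * partZ n (box N) β h) /
      (Real.exp (β * (2 * ((n : ℝ) / 2) ^ 2 * disp N l / mag n (box N) β h + h)) - 1) ≤
    tr n (box N) β h (modeOp n (fun x : box N => wave N l x.1) *
      (modeOp n (fun x : box N => wave N l x.1))ᴴ) := by
  have hZ : 0 < partZ n (box N) β h := partZ_pos β h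
  have hV : 0 < ((box N).card : ℝ) := by rw [card_box]; positivity
  obtain ⟨T, hT⟩ : ∃ T, T = modeOp n (fun x : box N => wave N l x.1) := ⟨_, rfl⟩
  have hb : tr n (box N) β h (Tᴴ * T - T * Tᴴ) =
      2 * mag n (box N) β h * ((box N).card * partZ n (box N) β h) := by
    rw [hT, comm_mode_mode]
    simp only [wave_normSq, mul_one]
    rw [← Finset.smul_sum, ← magnetization_eq, tr_smul, tr_mag]
    ring
  have hC := tr_double_comm_le (n := n) (fun x : box N => wave N l x.1) hβ.le h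
  rw [← hT, hb] at hC
  have hsum := sum_wave_nn_le (box N) N l
  have hls := logsum_trace (expo n (box N) β h) (expo_isHermitian β h) Tᴴ
  simp only [Matrix.conjTranspose_conjTranspose] at hls
  have hPQ : tr n (box N) β h (Tᴴ * T) - tr n (box N) β h (T * Tᴴ) =
      2 * mag n (box N) β h * ((box N).card * partZ n (box N) β h) := by
    rw [← tr_sub, hb]
  have hbpos : 0 < 2 * mag n (box N) β h * ((box N).card * partZ n (box N) β h) :=
    mul_pos (mul_pos two_pos hμ) (mul_pos hV hZ)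
  have hTne : Tᴴ ≠ 0 := by
    intro h0
    have hT0 : T = 0 := by
      have := congrArg Matrix.conjTranspose h0
      rwa [Matrix.conjTranspose_conjTranspose, Matrix.conjTranspose_zero] at this
    rw [hT0] at hPQ
    simp only [Matrix.zero_mul, Matrix.mul_zero, tr_zero, sub_zero] at hPQ
    exact absurd hPQ hbpos.ne
  have hQpos : 0 < tr n (box N) β h (T * Tᴴ) := by
    have := trace_star_mul_exp_pos (expo n (box N) β h) (expo_isHermitian β h) Tᴴ hTne
    rwa [Matrix.conjTranspose_conjTranspose] at this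
  have hS : (0 : ℝ) ≤ ((n : ℝ) / 2) ^ 2 := sq_nonneg _
  rw [← hT]
  exact mode_bound_aux β h (((n : ℝ) / 2) ^ 2) ((box N).card : ℝ) (partZ n (box N) β h)
    (mag n (box N) β h) (disp N l) (tr n (box N) β h (Tᴴ * T)) (tr n (box N) β h (T * Tᴴ)) _ _
    hV hZ hμ hβ hS hPQ hQpos hls hC hsum

lemma sum_raise_le (n N : ℕ) (β h : ℝ) :
    ∑ x : box N, tr n (box N) β h (oM n x * oP n x) ≤
      (n : ℝ) * ((n : ℝ) / 2 - mag n (box N) β h) *
        (((2 * N + 1 : ℝ)) ^ 3 * partZ n (box N) β h) := by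
  have hcard : ((box N).card : ℝ) = (2 * N + 1 : ℝ) ^ 3 := by rw [card_box]; push_cast; rfl
  have h0 : ∑ x : box N, tr n (box N) β h (oM n x * oP n x) ≤
      ∑ x : box N, (n : ℝ) * ((n : ℝ) / 2 * partZ n (box N) β h - tr n (box N) β h (oZ n x)) :=
    Finset.sum_le_sum fun x _ => local_raise_le (box N) x β h
  refine h0.trans (le_of_eq ?_)
  have h1 := tr_mag n N β h
  rw [magnetization_eq, tr_sum, hcard] at h1
  rw [← Finset.mul_sum, Finset.sum_sub_distrib, h1, Finset.sum_const,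
    Finset.card_univ, Fintype.card_coe, nsmul_eq_mul, hcard]
  ring

lemma arith_aux (V Z S0 μ c : ℝ) (hV : 0 < V) (hZ : 0 < Z)
    (h : 2 * μ * (V * Z) * S0 ≤ V * (2 * c * (c - μ) * (V * Z))) :
    μ * (V⁻¹ * S0) ≤ c * (c - μ) := by
  have h5 : 2 * (V * Z) * (μ * S0) ≤ 2 * (V * Z) * (V * (c * (c - μ))) := by linarith
  have h6 := le_of_mul_le_mul_left h5 (by positivity)
  have h7 : V⁻¹ * (μ * S0) ≤ V⁻¹ * (V * (c * (c - μ))) :=
    mul_le_mul_of_nonneg_left h6 (by positivity)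
  rw [← mul_assoc V⁻¹ V, inv_mul_cancel₀ hV.ne', one_mul] at h7
  linarith

/-- Finite-volume bound. -/
theorem finite_bound (n N : ℕ) {β h : ℝ} (hβ : 0 < β) 
    (hμ : 0 < mag n (box N) β h) :
    mag n (box N) β h * ((((2 * N + 1 : ℝ)) ^ 3)⁻¹ * ∑ l ∈ box N,
      1 / (Real.exp (β * (2 * ((n : ℝ) / 2) ^ 2 * disp N l / mag n (box N) β h + h)) - 1)) ≤
    (n : ℝ) / 2 * ((n : ℝ) / 2 - mag n (box N) β h) := by
  have hZ : 0 < partZ n (box N) β h := partZ_pos β h
  have hcard : ((box N).card : ℝ) = (2 * N + 1 : ℝ) ^ 3 := by rw [card_box]; push_cast; rfl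
  have hV : 0 < (2 * N + 1 : ℝ) ^ 3 := by positivity
  have h1 := Finset.sum_le_sum fun l (_ : l ∈ box N) => mode_bound (n := n) N hβ hμ l
  rw [← tr_sum, sum_mode, tr_smul, tr_sum] at h1
  have h2 := sum_raise_le n N β h
  have h3 := h1.trans (mul_le_mul_of_nonneg_left h2 hV.le)
  refine arith_aux _ (partZ n (box N) β h) _ _ _ hV hZ ?_
  rw [Finset.mul_sum]
  refine le_trans (le_of_eq ?_) (h3.trans (le_of_eq ?_))
  · refine Finset.sum_congr rfl fun l _ => ?_
    rw [hcard]; ring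
  · ring

end Vale.Agent.P361.H
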