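import Mathlib

namespace Vale.Agent.P361.H

open Matrix

variable {ι : Type*} [Fintype ι] [DecidableEq ι]

lemma exists_diag (K : Matrix ι ι ℂ) (hK : K.IsHermitian) :
    ∃ (U : Matrix ι ι ℂ) (E : ι → ℝ), Uᴴ * U = 1 ∧ U * Uᴴ = 1 ∧
      K = U * diagonal (fun i => (E i : ℂ)) * Uᴴ ∧
      NormedSpace.exp K = U * diagonal (fun i => ((Real.exp (E i) : ℝ) : ℂ)) * Uᴴ := by
  refine ⟨hK.eigenvectorUnitary, hK.eigenvalues, ?_, ?_, ?_, ?_⟩
  · exact Unitary.coe_star_mul_self _
  · exact Unitary.coe_mul_star_self _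
  · have h := hK.spectral_theorem
    rw [Unitary.conjStarAlgAut_apply] at h
    exact h
  · have h := hK.spectral_theorem
    rw [Unitary.conjStarAlgAut_apply] at h
    have hU : (hK.eigenvectorUnitary : Matrix ι ι ℂ) * (star hK.eigenvectorUnitary : Matrix ι ι ℂ) = 1 :=
      Unitary.coe_mul_star_self _
    have hinv : (hK.eigenvectorUnitary : Matrix ι ι ℂ)⁻¹ =
        (star (hK.eigenvectorUnitary : Matrix ι ι ℂ)) := Matrix.inv_eq_right_inv hU
    have hunit : IsUnit (hK.eigenvectorUnitary : Matrix ι ι ℂ) :=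
      IsUnit.of_mul_eq_one _ hU
    have h2 := Matrix.exp_conj (hK.eigenvectorUnitary : Matrix ι ι ℂ)
      (diagonal (RCLike.ofReal ∘ hK.eigenvalues)) hunit
    rw [hinv] at h2
    rw [← h] at h2
    rw [h2, Matrix.exp_diagonal]
    have h3 : (NormedSpace.exp (RCLike.ofReal ∘ hK.eigenvalues) : ι → ℂ) =
        fun i => ((Real.exp (hK.eigenvalues i) : ℝ) : ℂ) := by
      ext i
      rw [Pi.coe_exp]
      simp [Complex.exp_eq_exp_ℂ]
    rw [h3]
    rfl

/-- Trace of `X * exp K` in the eigenbasis. -/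
lemma trace_mul_conj (U X : Matrix ι ι ℂ) (d : ι → ℂ) :
    trace (X * (U * diagonal d * Uᴴ)) = ∑ i, (Uᴴ * X * U) i i * d i := by
  rw [Matrix.mul_assoc U _ Uᴴ, ← Matrix.mul_assoc X U, ← Matrix.mul_assoc (X * U) _,
    Matrix.trace_mul_comm (X * U * _) Uᴴ, ← Matrix.mul_assoc, ← Matrix.mul_assoc]
  simp only [Matrix.trace, Matrix.diag_apply, Matrix.mul_diagonal]

lemma mul_star_self' (z : ℂ) : z * star z = ((Complex.normSq z : ℝ) : ℂ) := by
  rw [Complex.star_def, Complex.mul_conj]

lemma star_mul_self'' (z : ℂ) : star z * z = ((Complex.normSq z : ℝ) : ℂ) := by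
  rw [mul_comm, mul_star_self']

/-- Termwise log-sum bound. -/
lemma term_bound (a b r : ℝ) (ha : 0 < a) (hb : 0 < b) (hr : 0 < r) :
    (a - b) * Real.log r + (a - b * r) + (b - a / r) ≤ (a - b) * Real.log (a / b) := by
  have h1 : 1 - (b * r) / a ≤ Real.log (a / (b * r)) := by
    have := Real.one_sub_inv_le_log_of_pos (show 0 < a / (b * r) by positivity)
    rwa [inv_div] at this
  have h2 : Real.log (a / (b * r)) ≤ a / (b * r) - 1 :=
    Real.log_le_sub_one_of_pos (by positivity)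
  have h3 : Real.log (a / (b * r)) = Real.log (a / b) - Real.log r := by
    rw [← div_div, Real.log_div (by positivity) (by positivity)]
  rw [h3] at h1 h2
  have h4 : a * (1 - b * r / a) ≤ a * (Real.log (a / b) - Real.log r) :=
    mul_le_mul_of_nonneg_left h1 ha.le
  have h5 : b * (Real.log (a / b) - Real.log r) ≤ b * (a / (b * r) - 1) :=
    mul_le_mul_of_nonneg_left h2 hb.le
  have h6 : a * (1 - b * r / a) = a - b * r := by field_simp
  have h7 : b * (a / (b * r) - 1) = a / r - b := by field_simp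
  nlinarith

/-- Log-sum inequality in the form used below. -/
lemma logsum_diag (N : ι → ι → ℝ) (hN : ∀ i j, 0 ≤ N i j) (E : ι → ℝ) :
    ((∑ i, ∑ j, N i j * Real.exp (E i)) - (∑ i, ∑ j, N i j * Real.exp (E j))) *
      Real.log ((∑ i, ∑ j, N i j * Real.exp (E i)) / (∑ i, ∑ j, N i j * Real.exp (E j))) ≤
    ∑ i, ∑ j, N i j * ((E i - E j) * (Real.exp (E i) - Real.exp (E j))) := by
  set P := ∑ i, ∑ j, N i j * Real.exp (E i) with hP
  set Q := ∑ i, ∑ j, N i j * Real.exp (E j) with hQ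
  have hRHS : ∀ i j, 0 ≤ N i j * ((E i - E j) * (Real.exp (E i) - Real.exp (E j))) := by
    intro i j
    refine mul_nonneg (hN i j) ?_
    rcases le_total (E i) (E j) with h | h
    · exact mul_nonneg_of_nonpos_of_nonpos (by linarith) (by have := Real.exp_le_exp.2 h; linarith)
    · exact mul_nonneg (by linarith) (by have := Real.exp_le_exp.2 h; linarith)
  have hP0 : 0 ≤ P := Finset.sum_nonneg fun i _ => Finset.sum_nonneg fun j _ =>
    mul_nonneg (hN i j) (Real.exp_pos _).le
  have hQ0 : 0 ≤ Q := Finset.sum_nonneg fun i _ => Finset.sum_nonneg fun j _ =>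
    mul_nonneg (hN i j) (Real.exp_pos _).le
  rcases hP0.eq_or_lt with h | hPpos
  · have : P / Q = 0 := by rw [← h]; simp
    rw [this]
    simp only [Real.log_zero, mul_zero]
    exact Finset.sum_nonneg fun i _ => Finset.sum_nonneg fun j _ => hRHS i j
  rcases hQ0.eq_or_lt with h | hQpos
  · have : P / Q = 0 := by rw [← h]; simp
    rw [this]
    simp only [Real.log_zero, mul_zero]
    exact Finset.sum_nonneg fun i _ => Finset.sum_nonneg fun j _ => hRHS i j
  have hr : 0 < P / Q := by positivity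
  have key : ∀ i j, (N i j * Real.exp (E i) - N i j * Real.exp (E j)) * Real.log (P / Q)
      + (N i j * Real.exp (E i) - N i j * Real.exp (E j) * (P / Q))
      + (N i j * Real.exp (E j) - N i j * Real.exp (E i) / (P / Q)) ≤
      N i j * ((E i - E j) * (Real.exp (E i) - Real.exp (E j))) := by
    intro i j
    have := term_bound (Real.exp (E i)) (Real.exp (E j)) (P / Q) (Real.exp_pos _)
      (Real.exp_pos _) hr
    rw [← Real.exp_sub, Real.log_exp] at this
    have h2 := mul_le_mul_of_nonneg_left this (hN i j)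
    refine le_trans (le_of_eq ?_) (h2.trans (le_of_eq ?_)) <;> ring
  have hsum := Finset.sum_le_sum fun i (_ : i ∈ Finset.univ) =>
    Finset.sum_le_sum fun j (_ : j ∈ Finset.univ) => key i j
  refine le_trans (le_of_eq ?_) hsum
  have e1 : ∑ i, ∑ j, ((N i j * Real.exp (E i) - N i j * Real.exp (E j)) * Real.log (P / Q)
      + (N i j * Real.exp (E i) - N i j * Real.exp (E j) * (P / Q))
      + (N i j * Real.exp (E j) - N i j * Real.exp (E i) / (P / Q))) =
      (P - Q) * Real.log (P / Q) + (P - Q * (P / Q)) + (Q - P / (P / Q)) := by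
    have r : ∀ c₁ c₂ : ℝ, ∑ i, ∑ j, (N i j * Real.exp (E i) * c₁ + N i j * Real.exp (E j) * c₂) =
        P * c₁ + Q * c₂ := by
      intro c₁ c₂
      rw [hP, hQ, Finset.sum_mul, Finset.sum_mul, ← Finset.sum_add_distrib]
      refine Finset.sum_congr rfl fun i _ => ?_
      rw [Finset.sum_mul, Finset.sum_mul, ← Finset.sum_add_distrib]
    have r' := r (Real.log (P / Q) + 1 - (P / Q)⁻¹) (- Real.log (P / Q) - (P / Q) + 1)
    calc _ = ∑ i, ∑ j, (N i j * Real.exp (E i) * (Real.log (P / Q) + 1 - (P / Q)⁻¹) +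
          N i j * Real.exp (E j) * (- Real.log (P / Q) - (P / Q) + 1)) := by
          refine Finset.sum_congr rfl fun i _ => Finset.sum_congr rfl fun j _ => ?_
          rw [div_eq_mul_inv _ (P / Q)]; ring
      _ = _ := by rw [r', div_eq_mul_inv _ (P / Q)]; ring
  rw [e1]
  have h1 : Q * (P / Q) = P := by field_simp
  have h2 : P / (P / Q) = Q := by field_simp
  rw [h1, h2]; ring

/-- The key inequality: with `W = exp K`, `P = Tr (A Aᴴ W)`, `Q = Tr (Aᴴ A W)` and
`C = Tr ([A, [-K, Aᴴ]] W)`, one has `(P - Q) log (P / Q) ≤ C`. -/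
theorem logsum_trace (K : Matrix ι ι ℂ) (hK : K.IsHermitian) (A : Matrix ι ι ℂ) :
    ((trace (A * Aᴴ * NormedSpace.exp K)).re - (trace (Aᴴ * A * NormedSpace.exp K)).re) *
      Real.log ((trace (A * Aᴴ * NormedSpace.exp K)).re /
        (trace (Aᴴ * A * NormedSpace.exp K)).re) ≤
    (trace ((A * (Aᴴ * K - K * Aᴴ) - (Aᴴ * K - K * Aᴴ) * A) * NormedSpace.exp K)).re := by
  obtain ⟨U, E, hU1, hU2, hKd, hexp⟩ := exists_diag K hK
  set B : Matrix ι ι ℂ := Uᴴ * A * U with hB
  have hBH : Bᴴ = Uᴴ * Aᴴ * U := by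
    simp [hB, Matrix.conjTranspose_mul, Matrix.mul_assoc]
  have ins : ∀ X Y : Matrix ι ι ℂ, Uᴴ * (X * Y) * U = (Uᴴ * X * U) * (Uᴴ * Y * U) := by
    intro X Y
    calc Uᴴ * (X * Y) * U = Uᴴ * X * 1 * Y * U := by simp [Matrix.mul_assoc]
      _ = _ := by rw [← hU2]; simp only [Matrix.mul_assoc]
  have hKU : Uᴴ * K * U = diagonal (fun i => (E i : ℂ)) := by
    rw [hKd]
    calc Uᴴ * (U * diagonal (fun i => (E i : ℂ)) * Uᴴ) * U
        = (Uᴴ * U) * diagonal (fun i => (E i : ℂ)) * (Uᴴ * U) := by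
          simp only [Matrix.mul_assoc]
      _ = _ := by rw [hU1]; simp
  have hP : (trace (A * Aᴴ * NormedSpace.exp K)).re =
      ∑ i, ∑ j, Complex.normSq (B i j) * Real.exp (E i) := by
    rw [hexp, trace_mul_conj, ins, ← hB, ← hBH, Complex.re_sum]
    refine Finset.sum_congr rfl fun i _ => ?_
    have : (B * Bᴴ) i i = ∑ j, ((Complex.normSq (B i j) : ℝ) : ℂ) := by
      rw [Matrix.mul_apply]
      refine Finset.sum_congr rfl fun j _ => ?_
      rw [Matrix.conjTranspose_apply, mul_star_self']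
    rw [this, ← Complex.ofReal_sum, ← Complex.ofReal_mul, Complex.ofReal_re, Finset.sum_mul]
  have hQ : (trace (Aᴴ * A * NormedSpace.exp K)).re =
      ∑ i, ∑ j, Complex.normSq (B i j) * Real.exp (E j) := by
    rw [hexp, trace_mul_conj, ins, ← hB, ← hBH, Complex.re_sum, Finset.sum_comm]
    refine Finset.sum_congr rfl fun i _ => ?_
    have : (Bᴴ * B) i i = ∑ j, ((Complex.normSq (B j i) : ℝ) : ℂ) := by
      rw [Matrix.mul_apply]
      refine Finset.sum_congr rfl fun j _ => ?_
      rw [Matrix.conjTranspose_apply, star_mul_self'']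
    rw [this, ← Complex.ofReal_sum, ← Complex.ofReal_mul, Complex.ofReal_re, Finset.sum_mul]
  have hC : (trace ((A * (Aᴴ * K - K * Aᴴ) - (Aᴴ * K - K * Aᴴ) * A) * NormedSpace.exp K)).re =
      ∑ i, ∑ j, Complex.normSq (B i j) * ((E i - E j) * (Real.exp (E i) - Real.exp (E j))) := by
    have e1 : Uᴴ * (A * (Aᴴ * K - K * Aᴴ) - (Aᴴ * K - K * Aᴴ) * A) * U =
        B * (Bᴴ * diagonal (fun i => (E i : ℂ)) - diagonal (fun i => (E i : ℂ)) * Bᴴ) -
        (Bᴴ * diagonal (fun i => (E i : ℂ)) - diagonal (fun i => (E i : ℂ)) * Bᴴ) * B := by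
      rw [Matrix.mul_sub, Matrix.sub_mul, ins, ins, Matrix.mul_sub, Matrix.sub_mul, ins, ins,
        ← hB, ← hBH, hKU]
    have e2 : ∀ i j, (Bᴴ * diagonal (fun i => (E i : ℂ)) - diagonal (fun i => (E i : ℂ)) * Bᴴ) i j
        = star (B j i) * ((E j - E i : ℝ) : ℂ) := by
      intro i j
      rw [Matrix.sub_apply, Matrix.mul_diagonal, Matrix.diagonal_mul, Matrix.conjTranspose_apply]
      push_cast; ring
    have e3 : ∀ i, (B * (Bᴴ * diagonal (fun i => (E i : ℂ)) -
        diagonal (fun i => (E i : ℂ)) * Bᴴ)) i i =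
        ∑ j, ((Complex.normSq (B i j) * (E i - E j) : ℝ) : ℂ) := by
      intro i
      rw [Matrix.mul_apply]
      refine Finset.sum_congr rfl fun j _ => ?_
      rw [e2, ← mul_assoc, mul_star_self']; push_cast; ring
    have e4 : ∀ i, ((Bᴴ * diagonal (fun i => (E i : ℂ)) -
        diagonal (fun i => (E i : ℂ)) * Bᴴ) * B) i i =
        ∑ j, ((Complex.normSq (B j i) * (E j - E i) : ℝ) : ℂ) := by
      intro i
      rw [Matrix.mul_apply]
      refine Finset.sum_congr rfl fun j _ => ?_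
      rw [e2, mul_right_comm, star_mul_self'']; push_cast; ring
    have e5 : (trace ((A * (Aᴴ * K - K * Aᴴ) - (Aᴴ * K - K * Aᴴ) * A) * NormedSpace.exp K)).re =
        (∑ i, ∑ j, Complex.normSq (B i j) * (E i - E j) * Real.exp (E i)) -
        ∑ i, ∑ j, Complex.normSq (B j i) * (E j - E i) * Real.exp (E i) := by
      rw [hexp, trace_mul_conj, e1, Complex.re_sum, ← Finset.sum_sub_distrib]
      refine Finset.sum_congr rfl fun i _ => ?_
      rw [Matrix.sub_apply, e3, e4, ← Complex.ofReal_sum, ← Complex.ofReal_sum,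
        ← Complex.ofReal_sub, ← Complex.ofReal_mul, Complex.ofReal_re, sub_mul, Finset.sum_mul,
        Finset.sum_mul]
    rw [e5, Finset.sum_comm (f := fun x i =>
      Complex.normSq (B i x) * (E i - E x) * Real.exp (E x)), ← Finset.sum_sub_distrib]
    refine Finset.sum_congr rfl fun i _ => ?_
    rw [← Finset.sum_sub_distrib]
    refine Finset.sum_congr rfl fun j _ => ?_
    ring
  rw [hP, hQ, hC]
  exact logsum_diag _ (fun i j => Complex.normSq_nonneg _) E

/-- Consequence of `(P - Q) log (P/Q) ≤ C`. -/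
lemma lower_of_logsum (P Q C : ℝ) (hQ : 0 ≤ Q) (hb : 0 < P - Q)
    (h : (P - Q) * Real.log (P / Q) ≤ C) (hQ' : 0 < Q) :
    (P - Q) / (Real.exp (C / (P - Q)) - 1) ≤ Q := by
  have hP : 0 < P := by linarith
  have h1 : Real.log (P / Q) ≤ C / (P - Q) := by
    rw [le_div_iff₀ hb, mul_comm]; exact h
  have h2 : P / Q ≤ Real.exp (C / (P - Q)) := by
    rw [← Real.log_le_iff_le_exp (by positivity)]; exact h1
  have h3 : (P - Q) / Q ≤ Real.exp (C / (P - Q)) - 1 := by
    rw [sub_div, div_self hQ'.ne']; linarith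
  have h4 : 0 < (P - Q) / Q := by positivity
  rw [div_le_iff₀ (by linarith)]
  rw [div_le_iff₀ hQ'] at h3
  linarith

/-- `Tr (Tᴴ T e^K) ≥ 0`. -/
lemma trace_star_mul_exp_nonneg (K : Matrix ι ι ℂ) (hK : K.IsHermitian) (T : Matrix ι ι ℂ) :
    0 ≤ (trace (Tᴴ * T * NormedSpace.exp K)).re := by
  obtain ⟨U, E, hU1, hU2, hKd, hexp⟩ := exists_diag K hK
  have e : Uᴴ * (Tᴴ * T) * U = (T * U)ᴴ * (T * U) := by
    simp only [Matrix.conjTranspose_mul, Matrix.mul_assoc]
  rw [hexp, trace_mul_conj, e, Complex.re_sum]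
  refine Finset.sum_nonneg fun i _ => ?_
  have : ((T * U)ᴴ * (T * U)) i i = ∑ j, ((Complex.normSq ((T * U) j i) : ℝ) : ℂ) := by
    rw [Matrix.mul_apply]
    refine Finset.sum_congr rfl fun j _ => ?_
    rw [Matrix.conjTranspose_apply, star_mul_self'']
  rw [this, ← Complex.ofReal_sum, ← Complex.ofReal_mul, Complex.ofReal_re]
  exact mul_nonneg (Finset.sum_nonneg fun j _ => Complex.normSq_nonneg _) (Real.exp_pos _).le

/-- `Tr (Tᴴ T e^K) > 0` unless `T = 0`. -/
lemma trace_star_mul_exp_pos (K : Matrix ι ι ℂ) (hK : K.IsHermitian) (T : Matrix ι ι ℂ)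
    (hT : T ≠ 0) :
    0 < (trace (Tᴴ * T * NormedSpace.exp K)).re := by
  obtain ⟨U, E, hU1, hU2, hKd, hexp⟩ := exists_diag K hK
  have e : Uᴴ * (Tᴴ * T) * U = (T * U)ᴴ * (T * U) := by
    simp only [Matrix.conjTranspose_mul, Matrix.mul_assoc]
  have hTU : T * U ≠ 0 := by
    intro h
    apply hT
    calc T = T * (U * Uᴴ) := by rw [hU2, Matrix.mul_one]
      _ = 0 := by rw [← Matrix.mul_assoc, h, Matrix.zero_mul]
  rw [hexp, trace_mul_conj, e, Complex.re_sum]
  have hdiag : ∀ i, (((T * U)ᴴ * (T * U)) i i * ((Real.exp (E i) : ℝ) : ℂ)).re =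
      (∑ j, Complex.normSq ((T * U) j i)) * Real.exp (E i) := by
    intro i
    have : ((T * U)ᴴ * (T * U)) i i = ∑ j, ((Complex.normSq ((T * U) j i) : ℝ) : ℂ) := by
      rw [Matrix.mul_apply]
      refine Finset.sum_congr rfl fun j _ => ?_
      rw [Matrix.conjTranspose_apply, star_mul_self'']
    rw [this, ← Complex.ofReal_sum, ← Complex.ofReal_mul, Complex.ofReal_re]
  simp only [hdiag]
  have hex : ∃ j i, (T * U) j i ≠ 0 := by
    by_contra hcon
    push Not at hcon
    exact hTU (Matrix.ext fun j i => hcon j i)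
  obtain ⟨j, i, hji⟩ := hex
  refine Finset.sum_pos' (fun i _ => mul_nonneg
    (Finset.sum_nonneg fun j _ => Complex.normSq_nonneg _) (Real.exp_pos _).le)
    ⟨i, Finset.mem_univ _, mul_pos ?_ (Real.exp_pos _)⟩
  exact Finset.sum_pos' (fun j _ => Complex.normSq_nonneg _)
    ⟨j, Finset.mem_univ _, Complex.normSq_pos.2 hji⟩

lemma trace_exp_pos [Nonempty ι] (K : Matrix ι ι ℂ) (hK : K.IsHermitian) :
    0 < (trace (NormedSpace.exp K)).re := by
  have := trace_star_mul_exp_pos K hK 1 one_ne_zero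
  simpa using this

/-- Peierls–Bogoliubov inequality. -/
theorem peierls_bogoliubov [Nonempty ι] (A B : Matrix ι ι ℂ) (hA : A.IsHermitian)
    (hB : B.IsHermitian) :
    Real.log (trace (NormedSpace.exp A)).re +
      (trace ((B - A) * NormedSpace.exp A)).re / (trace (NormedSpace.exp A)).re ≤
      Real.log (trace (NormedSpace.exp B)).re := by
  obtain ⟨U, a, hU1, hU2, hAd, hexpA⟩ := exists_diag A hA
  obtain ⟨V, b, hV1, hV2, hBd, hexpB⟩ := exists_diag B hB
  have hZA := trace_exp_pos A hA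
  have hZB := trace_exp_pos B hB
  set G : Matrix ι ι ℂ := Uᴴ * V with hG
  have hG1 : G * Gᴴ = 1 := by
    rw [hG, Matrix.conjTranspose_mul, Matrix.conjTranspose_conjTranspose]
    calc Uᴴ * V * (Vᴴ * U) = Uᴴ * (V * Vᴴ) * U := by simp only [Matrix.mul_assoc]
      _ = 1 := by rw [hV2, Matrix.mul_one, hU1]
  have hG2 : Gᴴ * G = 1 := by
    rw [hG, Matrix.conjTranspose_mul, Matrix.conjTranspose_conjTranspose]
    calc Vᴴ * U * (Uᴴ * V) = Vᴴ * (U * Uᴴ) * V := by simp only [Matrix.mul_assoc]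
      _ = 1 := by rw [hU2, Matrix.mul_one, hV1]
  set s : ι → ι → ℝ := fun i j => Complex.normSq (G i j) with hs
  have hs0 : ∀ i j, 0 ≤ s i j := fun i j => Complex.normSq_nonneg _
  have hrow : ∀ i, ∑ j, s i j = 1 := by
    intro i
    have h := congrFun (congrFun hG1 i) i
    rw [Matrix.mul_apply, Matrix.one_apply_eq] at h
    have h2 : ∑ j, G i j * Gᴴ j i = ((∑ j, s i j : ℝ) : ℂ) := by
      rw [Complex.ofReal_sum]
      refine Finset.sum_congr rfl fun j _ => ?_
      rw [Matrix.conjTranspose_apply, mul_star_self']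
    rw [h2] at h
    exact_mod_cast h
  have hcol : ∀ j, ∑ i, s i j = 1 := by
    intro j
    have h := congrFun (congrFun hG2 j) j
    rw [Matrix.mul_apply, Matrix.one_apply_eq] at h
    have h2 : ∑ i, Gᴴ j i * G i j = ((∑ i, s i j : ℝ) : ℂ) := by
      rw [Complex.ofReal_sum]
      refine Finset.sum_congr rfl fun i _ => ?_
      rw [Matrix.conjTranspose_apply, star_mul_self'']
    rw [h2] at h
    exact_mod_cast h
  have hUXU : ∀ X : Matrix ι ι ℂ, (trace (X * NormedSpace.exp A)).re =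
      ∑ i, ((Uᴴ * X * U) i i * ((Real.exp (a i) : ℝ) : ℂ)).re := by
    intro X
    rw [hexpA, trace_mul_conj, Complex.re_sum]
  have hAA : Uᴴ * A * U = diagonal (fun i => (a i : ℂ)) := by
    rw [hAd]
    calc Uᴴ * (U * diagonal (fun i => (a i : ℂ)) * Uᴴ) * U
        = (Uᴴ * U) * diagonal (fun i => (a i : ℂ)) * (Uᴴ * U) := by
          simp only [Matrix.mul_assoc]
      _ = _ := by rw [hU1]; simp
  have hBB : Uᴴ * B * U = G * diagonal (fun i => (b i : ℂ)) * Gᴴ := by
    rw [hBd, hG, Matrix.conjTranspose_mul, Matrix.conjTranspose_conjTranspose]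
    simp only [Matrix.mul_assoc]
  have hZAs : (trace (NormedSpace.exp A)).re = ∑ i, ∑ j, s i j * Real.exp (a i) := by
    have h := hUXU 1
    rw [Matrix.one_mul, Matrix.mul_one, hU1] at h
    rw [h]
    refine Finset.sum_congr rfl fun i _ => ?_
    rw [Matrix.one_apply_eq, one_mul, Complex.ofReal_re, ← Finset.sum_mul, hrow, one_mul]
  have hZBs : (trace (NormedSpace.exp B)).re = ∑ i, ∑ j, s i j * Real.exp (b j) := by
    have h1 : (trace (NormedSpace.exp B)).re = ∑ j, Real.exp (b j) := by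
      have := trace_mul_conj V 1 (fun i => ((Real.exp (b i) : ℝ) : ℂ))
      rw [Matrix.one_mul, Matrix.mul_one, hV1] at this
      rw [hexpB, this, Complex.re_sum]
      refine Finset.sum_congr rfl fun i _ => ?_
      rw [Matrix.one_apply_eq, one_mul, Complex.ofReal_re]
    rw [h1, Finset.sum_comm]
    refine Finset.sum_congr rfl fun j _ => ?_
    rw [← Finset.sum_mul, hcol, one_mul]
  have hD : (trace ((B - A) * NormedSpace.exp A)).re =
      ∑ i, ∑ j, s i j * Real.exp (a i) * (b j - a i) := by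
    rw [hUXU]
    refine Finset.sum_congr rfl fun i _ => ?_
    rw [Matrix.mul_sub, Matrix.sub_mul, Matrix.sub_apply, hAA, hBB, Matrix.diagonal_apply_eq]
    have h1 : (G * diagonal (fun i => (b i : ℂ)) * Gᴴ) i i = ((∑ j, s i j * b j : ℝ) : ℂ) := by
      rw [Matrix.mul_apply, Complex.ofReal_sum]
      refine Finset.sum_congr rfl fun j _ => ?_
      rw [Matrix.mul_diagonal, Matrix.conjTranspose_apply, mul_right_comm, mul_star_self']
      push_cast; rfl
    rw [h1, ← Complex.ofReal_sub, ← Complex.ofReal_mul, Complex.ofReal_re]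
    have h2 : (∑ j, s i j * b j - a i) = ∑ j, s i j * (b j - a i) := by
      simp only [mul_sub, Finset.sum_sub_distrib, ← Finset.sum_mul, hrow, one_mul]
    rw [h2, Finset.sum_mul]
    refine Finset.sum_congr rfl fun j _ => ?_
    ring
  set ZA := (trace (NormedSpace.exp A)).re with hZAdef
  set ZB := (trace (NormedSpace.exp B)).re with hZBdef
  set D := (trace ((B - A) * NormedSpace.exp A)).re with hDdef
  have hmain : ZA * Real.exp (D / ZA) ≤ ZB := by
    have hterm : ∀ i j, s i j * Real.exp (a i) * (Real.exp (D / ZA) * (1 + ((b j - a i) - D / ZA)))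
        ≤ s i j * Real.exp (b j) := by
      intro i j
      have h1 : 1 + ((b j - a i) - D / ZA) ≤ Real.exp ((b j - a i) - D / ZA) := by
        have := Real.add_one_le_exp ((b j - a i) - D / ZA)
        linarith
      calc s i j * Real.exp (a i) * (Real.exp (D / ZA) * (1 + ((b j - a i) - D / ZA)))
          ≤ s i j * Real.exp (a i) * (Real.exp (D / ZA) * Real.exp ((b j - a i) - D / ZA)) := by
            refine mul_le_mul_of_nonneg_left ?_ (mul_nonneg (hs0 i j) (Real.exp_pos _).le)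
            exact mul_le_mul_of_nonneg_left h1 (Real.exp_pos _).le
        _ = s i j * Real.exp (b j) := by
            rw [mul_assoc, ← Real.exp_add, ← Real.exp_add]
            congr 2; ring
    have hsum := Finset.sum_le_sum fun i (_ : i ∈ Finset.univ) =>
      Finset.sum_le_sum fun j (_ : j ∈ Finset.univ) => hterm i j
    rw [← hZBs] at hsum
    refine le_trans (le_of_eq ?_) hsum
    have r : ∀ c₁ c₂ : ℝ, ∑ i, ∑ j, (s i j * Real.exp (a i) * c₁ +
        s i j * Real.exp (a i) * (b j - a i) * c₂) = ZA * c₁ + D * c₂ := by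
      intro c₁ c₂
      rw [hZAs, hD, Finset.sum_mul, Finset.sum_mul, ← Finset.sum_add_distrib]
      refine Finset.sum_congr rfl fun i _ => ?_
      rw [Finset.sum_mul, Finset.sum_mul, ← Finset.sum_add_distrib]
    calc ZA * Real.exp (D / ZA)
        = ZA * (Real.exp (D / ZA) * (1 - D / ZA)) + D * Real.exp (D / ZA) := by
          field_simp; ring
      _ = _ := by
          rw [← r]
          refine Finset.sum_congr rfl fun i _ => Finset.sum_congr rfl fun j _ => ?_
          ring
  have h1 : 0 < ZA * Real.exp (D / ZA) := mul_pos hZA (Real.exp_pos _)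
  have h2 := Real.log_le_log h1 hmain
  rwa [Real.log_mul hZA.ne' (Real.exp_pos _).ne', Real.log_exp] at h2

end Vale.Agent.P361.H
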