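import Vale.Agent.P361.H.Site
import Vale.Agent.P361.H.Gibbs

namespace Vale.Agent.P361.H

open Matrix

variable {n : ℕ} {Λ : Finset Site}

/-- Site spin operators. -/
noncomputable abbrev oZ (n : ℕ) {Λ : Finset Site} (x : Λ) :
    Matrix (Λ → Fin (n + 1)) (Λ → Fin (n + 1)) ℂ := siteOp x (spinZ n)
noncomputable abbrev oM (n : ℕ) {Λ : Finset Site} (x : Λ) :
    Matrix (Λ → Fin (n + 1)) (Λ → Fin (n + 1)) ℂ := siteOp x (spinLower n)
noncomputable abbrev oP (n : ℕ) {Λ : Finset Site} (x : Λ) :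
    Matrix (Λ → Fin (n + 1)) (Λ → Fin (n + 1)) ℂ := siteOp x (spinLower n)ᴴ
noncomputable abbrev oA (n : ℕ) {Λ : Finset Site} (x : Λ) :
    Matrix (Λ → Fin (n + 1)) (Λ → Fin (n + 1)) ℂ := siteOp x (schwA n)
noncomputable abbrev oB (n : ℕ) {Λ : Finset Site} (x : Λ) :
    Matrix (Λ → Fin (n + 1)) (Λ → Fin (n + 1)) ℂ := siteOp x (schwB n)

lemma oM_conj (x : Λ) : (oM n x)ᴴ = oP n x := siteOp_conjTranspose x _

lemma oP_conj (x : Λ) : (oP n x)ᴴ = oM n x := by
  rw [siteOp_conjTranspose, Matrix.conjTranspose_conjTranspose]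

lemma oZ_conj (x : Λ) : (oZ n x)ᴴ = oZ n x := by
  rw [siteOp_conjTranspose, spinZ_conj]

lemma oM_transpose (x : Λ) : (oM n x)ᵀ = oP n x := by
  rw [siteOp_transpose, spinLower_transpose]

lemma oP_transpose (x : Λ) : (oP n x)ᵀ = oM n x := by
  rw [← oM_transpose, Matrix.transpose_transpose]

lemma oZ_transpose (x : Λ) : (oZ n x)ᵀ = oZ n x := by
  rw [siteOp_transpose, spinZ_transpose]

lemma comm_PM_same (x : Λ) : oP n x * oM n x = oM n x * oP n x + (2 : ℂ) • oZ n x := by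
  rw [siteOp_mul, siteOp_mul, ← siteOp_smul, ← siteOp_add, ← comm_raise_lower]
  congr 1; abel

lemma comm_ZM_same (x : Λ) : oZ n x * oM n x = oM n x * oZ n x - oM n x := by
  rw [siteOp_mul, siteOp_mul, ← siteOp_sub]
  congr 1
  have := comm_z_lower (n := n)
  rw [sub_eq_iff_eq_add] at this
  rw [this]; abel

lemma comm_ZP_same (x : Λ) : oZ n x * oP n x = oP n x * oZ n x + oP n x := by
  have := congrArg Matrix.conjTranspose (comm_ZM_same (n := n) x)
  simp only [Matrix.conjTranspose_mul, Matrix.conjTranspose_sub, oM_conj, oZ_conj] at this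
  rw [this]; abel

/-- The interaction `S_x · S_y`. -/
noncomputable def dotOp (n : ℕ) {Λ : Finset Site} (x y : Λ) :
    Matrix (Λ → Fin (n + 1)) (Λ → Fin (n + 1)) ℂ :=
  ∑ a : Fin 3, siteOp x (spin n a) * siteOp y (spin n a)

lemma dotOp_eq (x y : Λ) :
    dotOp n x y = oZ n x * oZ n y + (1 / 2 : ℂ) • (oP n x * oM n y + oM n x * oP n y) := by
  have hI : (1 / (2 * Complex.I)) * (1 / (2 * Complex.I)) = (-(1 / 4) : ℂ) := by
    field_simp
    rw [Complex.I_sq]; norm_num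
  rw [dotOp, Fin.sum_univ_three]
  have h0 : spin n 0 = (1 / 2 : ℂ) • ((spinLower n)ᴴ + spinLower n) := rfl
  have h1 : spin n 1 = (1 / (2 * Complex.I) : ℂ) • ((spinLower n)ᴴ - spinLower n) := rfl
  have h2 : spin n 2 = spinZ n := rfl
  rw [h0, h1, h2]
  simp only [siteOp_smul, siteOp_add, siteOp_sub, smul_mul_smul_comm, hI]
  simp only [mul_add, add_mul, mul_sub, sub_mul, smul_add, smul_sub]
  module

lemma dotOp_comm {x y : Λ} (hxy : x ≠ y) : dotOp n x y = dotOp n y x := by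
  rw [dotOp, dotOp]
  exact Finset.sum_congr rfl fun a _ => siteOp_comm hxy _ _

/-- `∑ x, f x S⁻_x`. -/
noncomputable def modeOp (n : ℕ) {Λ : Finset Site} (f : Λ → ℂ) :
    Matrix (Λ → Fin (n + 1)) (Λ → Fin (n + 1)) ℂ := ∑ x, f x • oM n x

lemma modeOp_conj (f : Λ → ℂ) : (modeOp n f)ᴴ = ∑ x, star (f x) • oP n x := by
  rw [modeOp, Matrix.conjTranspose_sum]
  exact Finset.sum_congr rfl fun x _ => by rw [Matrix.conjTranspose_smul, oM_conj]

/-- `G_{xy} = S³_x S⁻_y - S⁻_x S³_y`. -/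
noncomputable def gOp (n : ℕ) {Λ : Finset Site} (x y : Λ) :
    Matrix (Λ → Fin (n + 1)) (Λ → Fin (n + 1)) ℂ := oZ n x * oM n y - oM n x * oZ n y

lemma comm_dot_third {x y z : Λ} (hzx : z ≠ x) (hzy : z ≠ y)
    (A : Matrix (Fin (n + 1)) (Fin (n + 1)) ℂ) :
    dotOp n x y * siteOp z A - siteOp z A * dotOp n x y = 0 := by
  rw [dotOp, Finset.sum_mul, Finset.mul_sum, ← Finset.sum_sub_distrib]
  refine Finset.sum_eq_zero fun a _ => ?_
  rw [mul_assoc, siteOp_comm hzy.symm, ← mul_assoc, siteOp_comm hzx.symm, mul_assoc, sub_self]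

lemma comm_dot_first {x y : Λ} (hxy : x ≠ y) :
    dotOp n x y * oM n x - oM n x * dotOp n x y = gOp n x y := by
  rw [dotOp_eq, gOp]
  have e1 : oZ n x * oZ n y * oM n x = (oM n x * oZ n x - oM n x) * oZ n y := by
    rw [mul_assoc, siteOp_comm hxy.symm, ← mul_assoc, comm_ZM_same]
  have e2 : oP n x * oM n y * oM n x = (oM n x * oP n x + (2 : ℂ) • oZ n x) * oM n y := by
    rw [mul_assoc, siteOp_comm hxy.symm, ← mul_assoc, comm_PM_same]
  have e3 : oM n x * oP n y * oM n x = oM n x * (oM n x * oP n y) := by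
    rw [mul_assoc, siteOp_comm hxy.symm]
  simp only [add_mul, mul_add, smul_mul_assoc, mul_smul_comm, smul_add, e1, e2, e3, sub_mul]
  simp only [mul_assoc]
  module

lemma gOp_swap {x y : Λ} (hxy : x ≠ y) : gOp n y x = - gOp n x y := by
  rw [gOp, gOp, siteOp_comm hxy.symm, siteOp_comm hxy.symm]
  abel

lemma comm_dot_second {x y : Λ} (hxy : x ≠ y) :
    dotOp n x y * oM n y - oM n y * dotOp n x y = - gOp n x y := by
  rw [dotOp_comm hxy, comm_dot_first hxy.symm, gOp_swap hxy]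

lemma comm_dot_mode {x y : Λ} (hxy : x ≠ y) (f : Λ → ℂ) :
    dotOp n x y * modeOp n f - modeOp n f * dotOp n x y = (f x - f y) • gOp n x y := by
  rw [modeOp, Finset.mul_sum, Finset.sum_mul, ← Finset.sum_sub_distrib]
  have hterm : ∀ z, dotOp n x y * f z • oM n z - f z • oM n z * dotOp n x y =
      f z • (dotOp n x y * oM n z - oM n z * dotOp n x y) := by
    intro z; rw [mul_smul_comm, smul_mul_assoc, smul_sub]
  simp only [hterm]
  rw [← Finset.add_sum_erase _ _ (Finset.mem_univ x), ← Finset.add_sum_erase _ _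
    (show y ∈ Finset.univ.erase x from Finset.mem_erase.2 ⟨hxy.symm, Finset.mem_univ _⟩),
    Finset.sum_eq_zero, comm_dot_first hxy, comm_dot_second hxy]
  · module
  · intro z hz
    have hzy : z ≠ y := (Finset.mem_erase.1 hz).1
    have hzx : z ≠ x := (Finset.mem_erase.1 (Finset.mem_erase.1 hz).2).1
    rw [comm_dot_third hzx hzy, smul_zero]

lemma comm_P_g_first {x y : Λ} (hxy : x ≠ y) :
    oP n x * gOp n x y - gOp n x y * oP n x =
      -(oP n x * oM n y) - (2 : ℂ) • (oZ n x * oZ n y) := by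
  rw [gOp]
  have e1 : oZ n x * oM n y * oP n x = (oP n x * oZ n x + oP n x) * oM n y := by
    rw [mul_assoc, siteOp_comm hxy.symm, ← mul_assoc, comm_ZP_same]
  have e2 : oM n x * oZ n y * oP n x = (oP n x * oM n x - (2 : ℂ) • oZ n x) * oZ n y := by
    rw [mul_assoc, siteOp_comm hxy.symm, ← mul_assoc, comm_PM_same, add_sub_cancel_right]
  simp only [mul_sub, sub_mul, e1, e2, add_mul, smul_mul_assoc]
  simp only [mul_assoc]
  module

lemma comm_P_g_second {x y : Λ} (hxy : x ≠ y) :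
    oP n y * gOp n x y - gOp n x y * oP n y =
      (oM n x * oP n y) + (2 : ℂ) • (oZ n x * oZ n y) := by
  rw [gOp]
  have e1 : oP n y * (oZ n x * oM n y) = oZ n x * (oM n y * oP n y + (2 : ℂ) • oZ n y) := by
    rw [← mul_assoc, siteOp_comm hxy.symm, mul_assoc, comm_PM_same]
  have e2 : oP n y * (oM n x * oZ n y) = oM n x * (oZ n y * oP n y - oP n y) := by
    rw [← mul_assoc, siteOp_comm hxy.symm, mul_assoc, comm_ZP_same, add_sub_cancel_right]
  simp only [mul_sub, sub_mul, e1, e2, mul_add, mul_smul_comm]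
  simp only [mul_assoc]
  module

lemma comm_P_g_third {x y z : Λ} (hzx : z ≠ x) (hzy : z ≠ y) :
    oP n z * gOp n x y - gOp n x y * oP n z = 0 := by
  rw [gOp]
  have e1 : oP n z * (oZ n x * oM n y) = oZ n x * oM n y * oP n z := by
    rw [← mul_assoc, siteOp_comm hzx, mul_assoc, siteOp_comm hzy, mul_assoc]
  have e2 : oP n z * (oM n x * oZ n y) = oM n x * oZ n y * oP n z := by
    rw [← mul_assoc, siteOp_comm hzx, mul_assoc, siteOp_comm hzy, mul_assoc]
  rw [mul_sub, sub_mul, e1, e2, sub_self]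

lemma comm_mode_g {x y : Λ} (hxy : x ≠ y) (f : Λ → ℂ) :
    (modeOp n f)ᴴ * gOp n x y - gOp n x y * (modeOp n f)ᴴ =
      star (f x) • (-(oP n x * oM n y) - (2 : ℂ) • (oZ n x * oZ n y)) +
      star (f y) • ((oM n x * oP n y) + (2 : ℂ) • (oZ n x * oZ n y)) := by
  rw [modeOp_conj, Finset.mul_sum, Finset.sum_mul, ← Finset.sum_sub_distrib]
  have hterm : ∀ z, star (f z) • oP n z * gOp n x y - gOp n x y * star (f z) • oP n z =
      star (f z) • (oP n z * gOp n x y - gOp n x y * oP n z) := by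
    intro z; rw [mul_smul_comm, smul_mul_assoc, smul_sub]
  simp only [hterm]
  rw [← Finset.add_sum_erase _ _ (Finset.mem_univ x), ← Finset.add_sum_erase _ _
    (show y ∈ Finset.univ.erase x from Finset.mem_erase.2 ⟨hxy.symm, Finset.mem_univ _⟩),
    Finset.sum_eq_zero, comm_P_g_first hxy, comm_P_g_second hxy, add_zero]
  intro z hz
  have hzy : z ≠ y := (Finset.mem_erase.1 hz).1
  have hzx : z ≠ x := (Finset.mem_erase.1 (Finset.mem_erase.1 hz).2).1
  rw [comm_P_g_third hzx hzy, smul_zero]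

/-- `[T*, [S_x·S_y, T]]`. -/
lemma double_comm_dot {x y : Λ} (hxy : x ≠ y) (f : Λ → ℂ) :
    (modeOp n f)ᴴ * (dotOp n x y * modeOp n f - modeOp n f * dotOp n x y) -
      (dotOp n x y * modeOp n f - modeOp n f * dotOp n x y) * (modeOp n f)ᴴ =
      (f x - f y) • (star (f x) • (-(oP n x * oM n y) - (2 : ℂ) • (oZ n x * oZ n y)) +
      star (f y) • ((oM n x * oP n y) + (2 : ℂ) • (oZ n x * oZ n y))) := by
  rw [comm_dot_mode hxy, ← comm_mode_g hxy, mul_smul_comm, smul_mul_assoc, smul_sub]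

/-- `S² - S_x·S_y = ½ T† T`. -/
lemma dot_sos {x y : Λ} (hxy : x ≠ y) :
    (oA n x * oB n y - oB n x * oA n y)ᴴ * (oA n x * oB n y - oB n x * oA n y) =
      (2 * ((n : ℂ) / 2) ^ 2) • (1 : Matrix (Λ → Fin (n + 1)) (Λ → Fin (n + 1)) ℂ)
        - (2 : ℂ) • dotOp n x y := by
  have hAA : ∀ z : Λ, (oA n z)ᴴ * oA n z = ((n : ℂ) / 2) • (1 : Matrix _ _ ℂ) + oZ n z := by
    intro z
    rw [siteOp_conjTranspose, siteOp_mul, schwA_schwA, siteOp_add, siteOp_smul, siteOp_one]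
  have hBB : ∀ z : Λ, (oB n z)ᴴ * oB n z = ((n : ℂ) / 2) • (1 : Matrix _ _ ℂ) - oZ n z := by
    intro z
    rw [siteOp_conjTranspose, siteOp_mul, schwB_schwB, siteOp_sub, siteOp_smul, siteOp_one]
  have hAB : ∀ z : Λ, (oA n z)ᴴ * oB n z = oP n z := by
    intro z
    rw [siteOp_conjTranspose, siteOp_mul, schwA_schwB]
  have hBA : ∀ z : Λ, (oB n z)ᴴ * oA n z = oM n z := by
    intro z
    rw [siteOp_conjTranspose, siteOp_mul, schwB_schwA]
  have sw : ∀ (P Q R T : Matrix (Fin (n + 1)) (Fin (n + 1)) ℂ),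
      (siteOp x P * siteOp y Q)ᴴ * (siteOp x R * siteOp y T) =
      ((siteOp x P)ᴴ * siteOp x R) * ((siteOp y Q)ᴴ * siteOp y T) := by
    intro P Q R T
    rw [Matrix.conjTranspose_mul, siteOp_conjTranspose, siteOp_conjTranspose,
      siteOp_comm hxy.symm, mul_assoc, ← mul_assoc (siteOp y Qᴴ), siteOp_comm hxy.symm]
    simp only [mul_assoc]
  rw [Matrix.conjTranspose_sub, sub_mul, mul_sub, mul_sub, sw, sw, sw, sw, hAA, hBB, hAB, hBA,
    hAA, hBB, hAB, hBA, dotOp_eq]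
  simp only [add_mul, mul_add, sub_mul, mul_sub, smul_mul_assoc, mul_smul_comm, Matrix.mul_one,
    Matrix.one_mul, smul_add, smul_sub, smul_smul]
  module

lemma zz_sos {x y : Λ} (hxy : x ≠ y) :
    (oA n x * oB n y)ᴴ * (oA n x * oB n y) + (oB n x * oA n y)ᴴ * (oB n x * oA n y) =
      (2 * ((n : ℂ) / 2) ^ 2) • (1 : Matrix (Λ → Fin (n + 1)) (Λ → Fin (n + 1)) ℂ)
        - (2 : ℂ) • (oZ n x * oZ n y) := by
  have hAA : ∀ z : Λ, (oA n z)ᴴ * oA n z = ((n : ℂ) / 2) • (1 : Matrix _ _ ℂ) + oZ n z := by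
    intro z
    rw [siteOp_conjTranspose, siteOp_mul, schwA_schwA, siteOp_add, siteOp_smul, siteOp_one]
  have hBB : ∀ z : Λ, (oB n z)ᴴ * oB n z = ((n : ℂ) / 2) • (1 : Matrix _ _ ℂ) - oZ n z := by
    intro z
    rw [siteOp_conjTranspose, siteOp_mul, schwB_schwB, siteOp_sub, siteOp_smul, siteOp_one]
  have sw : ∀ (P Q R T : Matrix (Fin (n + 1)) (Fin (n + 1)) ℂ),
      (siteOp x P * siteOp y Q)ᴴ * (siteOp x R * siteOp y T) =
      ((siteOp x P)ᴴ * siteOp x R) * ((siteOp y Q)ᴴ * siteOp y T) := by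
    intro P Q R T
    rw [Matrix.conjTranspose_mul, siteOp_conjTranspose, siteOp_conjTranspose,
      siteOp_comm hxy.symm, mul_assoc, ← mul_assoc (siteOp y Qᴴ), siteOp_comm hxy.symm]
    simp only [mul_assoc]
  rw [sw, sw, hAA, hBB, hAA, hBB]
  simp only [add_mul, mul_add, sub_mul, mul_sub, smul_mul_assoc, mul_smul_comm, Matrix.mul_one,
    Matrix.one_mul, smul_add, smul_sub, smul_smul]
  module

end Vale.Agent.P361.H
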