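import Vale.Agent.P361.H.Comm

namespace Vale.Agent.P361.H

open Matrix

variable {n : ℕ} {Λ : Finset Site}

lemma isNN_ne {x y : Λ} (h : IsNN x.1 y.1) : x ≠ y := by
  rintro rfl
  simp [IsNN] at h

lemma isNN_symm {x y : Site} (h : IsNN x y) : IsNN y x := by
  unfold IsNN at *
  rw [← h]
  exact Finset.sum_congr rfl fun i _ => abs_sub_comm _ _

lemma hamiltonian_eq : hamiltonian n Λ =
    -((1 / 2 : ℂ) • ∑ x : Λ, ∑ y : Λ, if IsNN x.1 y.1 then dotOp n x y else 0) := rfl

lemma magnetization_eq : magnetization n Λ = ∑ x : Λ, oZ n x := rfl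

lemma dotOp_conj {x y : Λ} (hxy : x ≠ y) : (dotOp n x y)ᴴ = dotOp n x y := by
  rw [dotOp_eq, Matrix.conjTranspose_add, Matrix.conjTranspose_smul, Matrix.conjTranspose_add,
    Matrix.conjTranspose_mul, Matrix.conjTranspose_mul, Matrix.conjTranspose_mul, oZ_conj, oZ_conj,
    oM_conj, oM_conj, oP_conj, oP_conj, siteOp_comm hxy.symm, siteOp_comm hxy.symm,
    siteOp_comm hxy.symm]
  have : star (1 / 2 : ℂ) = 1 / 2 := by simp
  rw [this, add_comm (oM n x * oP n y)]

lemma dotOp_transpose {x y : Λ} (hxy : x ≠ y) : (dotOp n x y)ᵀ = dotOp n x y := by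
  rw [dotOp_eq, Matrix.transpose_add, Matrix.transpose_smul, Matrix.transpose_add,
    Matrix.transpose_mul, Matrix.transpose_mul, Matrix.transpose_mul, oZ_transpose, oZ_transpose,
    oM_transpose, oM_transpose, oP_transpose, oP_transpose, siteOp_comm hxy.symm,
    siteOp_comm hxy.symm, siteOp_comm hxy.symm]
  rw [add_comm (oM n x * oP n y)]

lemma hamiltonian_conj : (hamiltonian n Λ)ᴴ = hamiltonian n Λ := by
  rw [hamiltonian_eq, Matrix.conjTranspose_neg, Matrix.conjTranspose_smul,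
    Matrix.conjTranspose_sum]
  have : star (1 / 2 : ℂ) = 1 / 2 := by simp
  rw [this]
  congr 2
  refine Finset.sum_congr rfl fun x _ => ?_
  rw [Matrix.conjTranspose_sum]
  refine Finset.sum_congr rfl fun y _ => ?_
  split_ifs with h
  · exact dotOp_conj (isNN_ne h)
  · exact Matrix.conjTranspose_zero

lemma hamiltonian_transpose : (hamiltonian n Λ)ᵀ = hamiltonian n Λ := by
  rw [hamiltonian_eq, Matrix.transpose_neg, Matrix.transpose_smul,
    Matrix.transpose_sum]
  congr 2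
  refine Finset.sum_congr rfl fun x _ => ?_
  rw [Matrix.transpose_sum]
  refine Finset.sum_congr rfl fun y _ => ?_
  split_ifs with h
  · exact dotOp_transpose (isNN_ne h)
  · exact Matrix.transpose_zero

lemma magnetization_conj : (magnetization n Λ)ᴴ = magnetization n Λ := by
  rw [magnetization_eq, Matrix.conjTranspose_sum]
  exact Finset.sum_congr rfl fun x _ => oZ_conj x

lemma magnetization_transpose : (magnetization n Λ)ᵀ = magnetization n Λ := by
  rw [magnetization_eq, Matrix.transpose_sum]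
  exact Finset.sum_congr rfl fun x _ => oZ_transpose x

/-- The exponent `-β (H - h M)`. -/
noncomputable def expo (n : ℕ) (Λ : Finset Site) (β h : ℝ) :
    Matrix (Λ → Fin (n + 1)) (Λ → Fin (n + 1)) ℂ :=
  -(β : ℂ) • (hamiltonian n Λ - (h : ℂ) • magnetization n Λ)

lemma expo_isHermitian (β h : ℝ) : (expo n Λ β h).IsHermitian := by
  unfold Matrix.IsHermitian expo
  rw [Matrix.conjTranspose_smul, Matrix.conjTranspose_sub, Matrix.conjTranspose_smul,
    hamiltonian_conj, magnetization_conj]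
  simp

lemma expo_transpose (β h : ℝ) : (expo n Λ β h)ᵀ = expo n Λ β h := by
  unfold expo
  rw [Matrix.transpose_smul, Matrix.transpose_sub, Matrix.transpose_smul,
    hamiltonian_transpose, magnetization_transpose]

/-- Partition function. -/
noncomputable def partZ (n : ℕ) (Λ : Finset Site) (β h : ℝ) : ℝ :=
  (trace (NormedSpace.exp (expo n Λ β h))).re

/-- Unnormalized expectation `Re Tr (X e^{-β(H-hM)})`. -/
noncomputable def tr (n : ℕ) (Λ : Finset Site) (β h : ℝ)
    (X : Matrix (Λ → Fin (n + 1)) (Λ → Fin (n + 1)) ℂ) : ℝ :=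
  (trace (X * NormedSpace.exp (expo n Λ β h))).re

lemma partZ_pos (β h : ℝ) : 0 < partZ n Λ β h := trace_exp_pos _ (expo_isHermitian β h)

lemma tr_add (β h : ℝ) (X Y : Matrix (Λ → Fin (n + 1)) (Λ → Fin (n + 1)) ℂ) :
    tr n Λ β h (X + Y) = tr n Λ β h X + tr n Λ β h Y := by
  simp [tr, Matrix.add_mul]

lemma tr_sub (β h : ℝ) (X Y : Matrix (Λ → Fin (n + 1)) (Λ → Fin (n + 1)) ℂ) :
    tr n Λ β h (X - Y) = tr n Λ β h X - tr n Λ β h Y := by
  simp [tr, Matrix.sub_mul]

lemma tr_neg (β h : ℝ) (X : Matrix (Λ → Fin (n + 1)) (Λ → Fin (n + 1)) ℂ) :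
    tr n Λ β h (-X) = - tr n Λ β h X := by
  simp [tr]

lemma tr_smul (β h : ℝ) (c : ℝ) (X : Matrix (Λ → Fin (n + 1)) (Λ → Fin (n + 1)) ℂ) :
    tr n Λ β h ((c : ℂ) • X) = c * tr n Λ β h X := by
  simp [tr]

lemma tr_sum {ι : Type*} (s : Finset ι) (β h : ℝ)
    (X : ι → Matrix (Λ → Fin (n + 1)) (Λ → Fin (n + 1)) ℂ) :
    tr n Λ β h (∑ i ∈ s, X i) = ∑ i ∈ s, tr n Λ β h (X i) := by
  simp [tr, Finset.sum_mul, Matrix.trace_sum, Complex.re_sum]

lemma tr_one (β h : ℝ) : tr n Λ β h 1 = partZ n Λ β h := by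
  simp [tr, partZ]

lemma tr_zero (β h : ℝ) : tr n Λ β h 0 = 0 := by
  simp [tr]

lemma tr_star_mul_nonneg (β h : ℝ) (X : Matrix (Λ → Fin (n + 1)) (Λ → Fin (n + 1)) ℂ) :
    0 ≤ tr n Λ β h (Xᴴ * X) := trace_star_mul_exp_nonneg _ (expo_isHermitian β h) X

/-- Invariance of traces under transposition. -/
lemma trace_transpose_exp (β h : ℝ) (X : Matrix (Λ → Fin (n + 1)) (Λ → Fin (n + 1)) ℂ) :
    trace (Xᵀ * NormedSpace.exp (expo n Λ β h)) = trace (X * NormedSpace.exp (expo n Λ β h)) := by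
  conv_rhs => rw [← Matrix.trace_transpose, Matrix.transpose_mul, ← Matrix.exp_transpose,
    expo_transpose, Matrix.trace_mul_comm]

lemma trace_conjTranspose_exp (β h : ℝ) (X : Matrix (Λ → Fin (n + 1)) (Λ → Fin (n + 1)) ℂ) :
    trace (Xᴴ * NormedSpace.exp (expo n Λ β h)) =
      star (trace (X * NormedSpace.exp (expo n Λ β h))) := by
  rw [← Matrix.trace_conjTranspose, Matrix.conjTranspose_mul, ← Matrix.exp_conjTranspose,
    (expo_isHermitian β h).eq, Matrix.trace_mul_comm]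

lemma trace_PM_comm {x y : Λ} (hxy : x ≠ y) (β h : ℝ) :
    trace (oP n x * oM n y * NormedSpace.exp (expo n Λ β h)) =
    trace (oM n x * oP n y * NormedSpace.exp (expo n Λ β h)) := by
  rw [← trace_transpose_exp, Matrix.transpose_mul, oM_transpose, oP_transpose,
    siteOp_comm hxy.symm]

lemma trace_PM_real {x y : Λ} (hxy : x ≠ y) (β h : ℝ) :
    trace (oP n x * oM n y * NormedSpace.exp (expo n Λ β h)) =
    ((tr n Λ β h (oP n x * oM n y) : ℝ) : ℂ) := by
  have h1 : star (trace (oP n x * oM n y * NormedSpace.exp (expo n Λ β h))) =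
      trace (oP n x * oM n y * NormedSpace.exp (expo n Λ β h)) := by
    rw [← trace_conjTranspose_exp, Matrix.conjTranspose_mul, oM_conj, oP_conj,
      siteOp_comm hxy.symm, ← trace_PM_comm hxy]
  exact (Complex.conj_eq_iff_re.1 h1).symm

lemma trace_ZZ_real {x y : Λ} (hxy : x ≠ y) (β h : ℝ) :
    trace (oZ n x * oZ n y * NormedSpace.exp (expo n Λ β h)) =
    ((tr n Λ β h (oZ n x * oZ n y) : ℝ) : ℂ) := by
  have h1 : star (trace (oZ n x * oZ n y * NormedSpace.exp (expo n Λ β h))) =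
      trace (oZ n x * oZ n y * NormedSpace.exp (expo n Λ β h)) := by
    rw [← trace_conjTranspose_exp, Matrix.conjTranspose_mul, oZ_conj, oZ_conj,
      siteOp_comm hxy.symm]
  exact (Complex.conj_eq_iff_re.1 h1).symm

/-- Expectation of the double commutator with `S_x·S_y`. -/
lemma tr_double_comm_dot {x y : Λ} (hxy : x ≠ y) (f : Λ → ℂ) (β h : ℝ) :
    tr n Λ β h ((modeOp n f)ᴴ * (dotOp n x y * modeOp n f - modeOp n f * dotOp n x y) -
      (dotOp n x y * modeOp n f - modeOp n f * dotOp n x y) * (modeOp n f)ᴴ) =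
    - Complex.normSq (f x - f y) * (tr n Λ β h (dotOp n x y) + tr n Λ β h (oZ n x * oZ n y)) := by
  have hdot : tr n Λ β h (dotOp n x y) = tr n Λ β h (oZ n x * oZ n y) +
      tr n Λ β h (oP n x * oM n y) := by
    rw [dotOp_eq, tr_add]
    congr 1
    have : ((1 / 2 : ℂ)) = (((1 / 2 : ℝ)) : ℂ) := by push_cast; rfl
    rw [this, tr_smul, tr_add]
    have h2 : tr n Λ β h (oM n x * oP n y) = tr n Λ β h (oP n x * oM n y) := by
      unfold tr; rw [trace_PM_comm hxy]
    rw [h2]; ring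
  rw [double_comm_dot hxy, hdot]
  unfold tr
  rw [smul_mul_assoc, Matrix.trace_smul, Matrix.add_mul, Matrix.trace_add, smul_mul_assoc,
    smul_mul_assoc, Matrix.trace_smul, Matrix.trace_smul, Matrix.sub_mul, Matrix.add_mul,
    Matrix.trace_sub, Matrix.trace_add, Matrix.neg_mul, Matrix.trace_neg, smul_mul_assoc,
    Matrix.trace_smul, ← trace_PM_comm hxy, trace_PM_real hxy, trace_ZZ_real hxy]
  set p := tr n Λ β h (oP n x * oM n y) with hp
  set q := tr n Λ β h (oZ n x * oZ n y) with hq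
  have e : (f x - f y) • (star (f x) • (-(p : ℂ) - (2 : ℂ) • (q : ℂ)) +
      star (f y) • ((p : ℂ) + (2 : ℂ) • (q : ℂ))) =
      ((- Complex.normSq (f x - f y) * (p + 2 * q) : ℝ) : ℂ) := by
    have h3 := mul_star_self' (f x - f y)
    push_cast
    rw [← h3]
    simp only [smul_eq_mul, star_sub]
    ring
  rw [e, Complex.ofReal_re, Complex.ofReal_re, Complex.ofReal_re]
  ring

lemma tr_dot_le {x y : Λ} (hxy : x ≠ y) (β h : ℝ) :
    tr n Λ β h (dotOp n x y) ≤ ((n : ℝ) / 2) ^ 2 * partZ n Λ β h := by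
  have h1 := tr_star_mul_nonneg β h (oA n x * oB n y - oB n x * oA n y)
  rw [dot_sos hxy] at h1
  have e1 : (2 * ((n : ℂ) / 2) ^ 2) = (((2 * ((n : ℝ) / 2) ^ 2 : ℝ)) : ℂ) := by push_cast; rfl
  have e2 : (2 : ℂ) = ((2 : ℝ) : ℂ) := by push_cast; rfl
  rw [e1, e2, tr_sub, tr_smul, tr_smul, tr_one] at h1
  linarith

lemma tr_zz_le {x y : Λ} (hxy : x ≠ y) (β h : ℝ) :
    tr n Λ β h (oZ n x * oZ n y) ≤ ((n : ℝ) / 2) ^ 2 * partZ n Λ β h := by
  have h1 := tr_star_mul_nonneg β h (oA n x * oB n y)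
  have h2 := tr_star_mul_nonneg β h (oB n x * oA n y)
  have h3 := add_nonneg h1 h2
  rw [← tr_add, zz_sos hxy] at h3
  have e1 : (2 * ((n : ℂ) / 2) ^ 2) = (((2 * ((n : ℝ) / 2) ^ 2 : ℝ)) : ℂ) := by push_cast; rfl
  have e2 : (2 : ℂ) = ((2 : ℝ) : ℂ) := by push_cast; rfl
  rw [e1, e2, tr_sub, tr_smul, tr_smul, tr_one] at h3
  linarith

/-- `[T*, T] = 2 ∑ |f|² S³`. -/
lemma comm_mode_mode (f : Λ → ℂ) :
    (modeOp n f)ᴴ * modeOp n f - modeOp n f * (modeOp n f)ᴴ =
      ∑ x, ((2 * Complex.normSq (f x) : ℝ) : ℂ) • oZ n x := by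
  rw [modeOp_conj, modeOp, Finset.sum_mul_sum, Finset.sum_mul_sum]
  have hsw : ∑ i : Λ, ∑ j : Λ, f i • oM n i * star (f j) • oP n j =
      ∑ i : Λ, ∑ j : Λ, f j • oM n j * star (f i) • oP n i := Finset.sum_comm
  rw [hsw, ← Finset.sum_sub_distrib]
  refine Finset.sum_congr rfl fun x _ => ?_
  rw [← Finset.sum_sub_distrib, Finset.sum_eq_single x]
  · rw [smul_mul_smul_comm, smul_mul_smul_comm, comm_PM_same, smul_add, smul_smul,
      mul_comm (f x), add_sub_cancel_left, star_mul_self'']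
    congr 1
    push_cast; ring
  · intro y _ hyx
    rw [smul_mul_smul_comm, smul_mul_smul_comm, siteOp_comm hyx, mul_comm (f y), sub_self]
  · simp

/-- `[M, T] = -T`. -/
lemma comm_mag_mode (f : Λ → ℂ) :
    magnetization n Λ * modeOp n f - modeOp n f * magnetization n Λ = - modeOp n f := by
  rw [magnetization_eq, modeOp, Finset.sum_mul_sum, Finset.sum_mul_sum]
  have hsw : ∑ i : Λ, ∑ j : Λ, f i • oM n i * oZ n j =
      ∑ i : Λ, ∑ j : Λ, f j • oM n j * oZ n i := Finset.sum_comm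
  rw [hsw, ← Finset.sum_sub_distrib, ← Finset.sum_neg_distrib]
  refine Finset.sum_congr rfl fun x _ => ?_
  rw [← Finset.sum_sub_distrib, Finset.sum_eq_single x]
  · rw [mul_smul_comm, smul_mul_assoc, comm_ZM_same, smul_sub]
    abel
  · intro y _ hyx
    rw [mul_smul_comm, smul_mul_assoc, siteOp_comm hyx, sub_self]
  · simp

/-- The double commutator bound for a mode `f`. -/
lemma tr_double_comm_le (f : Λ → ℂ) {β : ℝ} (hβ : 0 ≤ β) (h : ℝ) :
    tr n Λ β h ((modeOp n f)ᴴ * (modeOp n f * expo n Λ β h - expo n Λ β h * modeOp n f) -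
      (modeOp n f * expo n Λ β h - expo n Λ β h * modeOp n f) * (modeOp n f)ᴴ) ≤
    β * (((n : ℝ) / 2) ^ 2 * (∑ x : Λ, ∑ y : Λ, if IsNN x.1 y.1 then
      Complex.normSq (f x - f y) else 0) * partZ n Λ β h +
      h * tr n Λ β h ((modeOp n f)ᴴ * modeOp n f - modeOp n f * (modeOp n f)ᴴ)) := by
  set T := modeOp n f with hT
  have e1 : T * expo n Λ β h - expo n Λ β h * T =
      (β : ℂ) • ((hamiltonian n Λ * T - T * hamiltonian n Λ) + (h : ℂ) • T) := by
    have := comm_mag_mode (n := n) f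
    rw [← hT] at this
    rw [expo]
    have h2 : magnetization n Λ * T = T * magnetization n Λ - T := by
      rw [sub_eq_iff_eq_add] at this; rw [this]; abel
    simp only [mul_smul_comm, smul_mul_assoc, mul_sub, sub_mul, h2]
    module
  have e2 : hamiltonian n Λ * T - T * hamiltonian n Λ =
      ∑ x : Λ, ∑ y : Λ, if IsNN x.1 y.1 then
        (-(1 / 2) : ℂ) • (dotOp n x y * T - T * dotOp n x y) else 0 := by
    rw [hamiltonian_eq]
    simp only [neg_mul, mul_neg, smul_mul_assoc, mul_smul_comm, Finset.sum_mul, Finset.mul_sum,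
      Finset.smul_sum]
    rw [← neg_sub_neg, neg_neg, neg_neg, ← Finset.sum_sub_distrib]
    refine Finset.sum_congr rfl fun x _ => ?_
    rw [← Finset.sum_sub_distrib]
    refine Finset.sum_congr rfl fun y _ => ?_
    split_ifs
    · module
    · simp
  have e3 : Tᴴ * (T * expo n Λ β h - expo n Λ β h * T) -
      (T * expo n Λ β h - expo n Λ β h * T) * Tᴴ =
      (β : ℂ) • ((∑ x : Λ, ∑ y : Λ, if IsNN x.1 y.1 then
        (((-(1 / 2) : ℝ)) : ℂ) • (Tᴴ * (dotOp n x y * T - T * dotOp n x y) -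
          (dotOp n x y * T - T * dotOp n x y) * Tᴴ) else 0) +
        (h : ℂ) • (Tᴴ * T - T * Tᴴ)) := by
    rw [e1, mul_smul_comm, smul_mul_assoc, ← smul_sub]
    congr 1
    rw [mul_add, add_mul, mul_smul_comm, smul_mul_assoc, add_sub_add_comm, ← smul_sub, e2]
    congr 1
    rw [Finset.mul_sum, Finset.sum_mul, ← Finset.sum_sub_distrib]
    refine Finset.sum_congr rfl fun x _ => ?_
    rw [Finset.mul_sum, Finset.sum_mul, ← Finset.sum_sub_distrib]
    refine Finset.sum_congr rfl fun y _ => ?_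
    split_ifs
    · rw [mul_smul_comm, smul_mul_assoc, ← smul_sub]
      push_cast; rfl
    · simp
  rw [e3, tr_smul, tr_add, tr_smul, tr_sum]
  refine mul_le_mul_of_nonneg_left ?_ hβ
  refine add_le_add_left ?_ _
  rw [Finset.mul_sum, Finset.sum_mul]
  refine Finset.sum_le_sum fun x _ => ?_
  rw [tr_sum, Finset.mul_sum, Finset.sum_mul]
  refine Finset.sum_le_sum fun y _ => ?_
  split_ifs with hnn
  · rw [tr_smul, tr_double_comm_dot (isNN_ne hnn)]
    have h1 := tr_dot_le (n := n) (isNN_ne hnn) β h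
    have h2 := tr_zz_le (n := n) (isNN_ne hnn) β h
    have h3 := Complex.normSq_nonneg (f x - f y)
    have h4 := mul_le_mul_of_nonneg_left (add_le_add h1 h2) h3
    linarith
  · rw [tr_zero]; simp

end Vale.Agent.P361.H
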