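import Vale.Agent.P361.Defs

namespace Vale.Agent.P361.H

open Matrix

variable {n : ℕ} {Λ : Finset Site}

/-- Product operator. -/
noncomputable def prodOp (A : Λ → Matrix (Fin (n + 1)) (Fin (n + 1)) ℂ) :
    Matrix (Λ → Fin (n + 1)) (Λ → Fin (n + 1)) ℂ :=
  Matrix.of fun σ τ => ∏ y : Λ, A y (σ y) (τ y)

lemma prodOp_mul (A B : Λ → Matrix (Fin (n + 1)) (Fin (n + 1)) ℂ) :
    prodOp A * prodOp B = prodOp (fun y => A y * B y) := by
  ext σ τ
  simp only [prodOp, Matrix.mul_apply, Matrix.of_apply]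
  rw [Finset.prod_univ_sum]
  simp only [Fintype.piFinset_univ, Finset.prod_mul_distrib]

lemma siteOp_eq_prodOp (x : Λ) (A : Matrix (Fin (n + 1)) (Fin (n + 1)) ℂ) :
    siteOp x A = prodOp (fun y => if y = x then A else 1) := rfl

lemma siteOp_mul (x : Λ) (A B : Matrix (Fin (n + 1)) (Fin (n + 1)) ℂ) :
    siteOp x A * siteOp x B = siteOp x (A * B) := by
  rw [siteOp_eq_prodOp, siteOp_eq_prodOp, siteOp_eq_prodOp, prodOp_mul]
  congr 1
  ext1 y
  split_ifs <;> simp

lemma siteOp_comm {x y : Λ} (hxy : x ≠ y) (A B : Matrix (Fin (n + 1)) (Fin (n + 1)) ℂ) :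
    siteOp x A * siteOp y B = siteOp y B * siteOp x A := by
  rw [siteOp_eq_prodOp, siteOp_eq_prodOp, prodOp_mul, prodOp_mul]
  congr 1
  ext1 z
  by_cases h1 : z = x
  · have h2 : z ≠ y := fun h => hxy (h1.symm.trans h)
    simp [h1, hxy]
  · simp [h1]

lemma siteOp_apply (x : Λ) (A : Matrix (Fin (n + 1)) (Fin (n + 1)) ℂ) (σ τ : Λ → Fin (n + 1)) :
    siteOp x A σ τ = A (σ x) (τ x) *
      ∏ y ∈ Finset.univ.erase x, (1 : Matrix (Fin (n + 1)) (Fin (n + 1)) ℂ) (σ y) (τ y) := by
  simp only [siteOp, Matrix.of_apply]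
  rw [← Finset.mul_prod_erase Finset.univ _ (Finset.mem_univ x)]
  congr 1
  · simp
  · refine Finset.prod_congr rfl fun y hy => ?_
    rw [if_neg (Finset.ne_of_mem_erase hy)]

lemma siteOp_add (x : Λ) (A B : Matrix (Fin (n + 1)) (Fin (n + 1)) ℂ) :
    siteOp x (A + B) = siteOp x A + siteOp x B := by
  ext σ τ
  rw [Matrix.add_apply, siteOp_apply, siteOp_apply, siteOp_apply, Matrix.add_apply, add_mul]

lemma siteOp_smul (x : Λ) (c : ℂ) (A : Matrix (Fin (n + 1)) (Fin (n + 1)) ℂ) :
    siteOp x (c • A) = c • siteOp x A := by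
  ext σ τ
  rw [Matrix.smul_apply, siteOp_apply, siteOp_apply, Matrix.smul_apply, smul_eq_mul, smul_eq_mul,
    mul_assoc]

lemma siteOp_neg (x : Λ) (A : Matrix (Fin (n + 1)) (Fin (n + 1)) ℂ) :
    siteOp x (-A) = - siteOp x A := by
  have := siteOp_smul x (-1) A
  simpa using this

lemma siteOp_sub (x : Λ) (A B : Matrix (Fin (n + 1)) (Fin (n + 1)) ℂ) :
    siteOp x (A - B) = siteOp x A - siteOp x B := by
  rw [sub_eq_add_neg, siteOp_add, siteOp_neg, ← sub_eq_add_neg]

lemma siteOp_one (x : Λ) :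
    siteOp x (1 : Matrix (Fin (n + 1)) (Fin (n + 1)) ℂ) = 1 := by
  ext σ τ
  simp only [siteOp, Matrix.of_apply, ite_self]
  by_cases h : σ = τ
  · subst h; simp
  · rw [Matrix.one_apply_ne h]
    obtain ⟨y, hy⟩ := Function.ne_iff.1 h
    exact Finset.prod_eq_zero (Finset.mem_univ y) (Matrix.one_apply_ne hy)

lemma siteOp_conjTranspose (x : Λ) (A : Matrix (Fin (n + 1)) (Fin (n + 1)) ℂ) :
    (siteOp x A)ᴴ = siteOp x Aᴴ := by
  ext σ τ
  rw [Matrix.conjTranspose_apply]
  simp only [siteOp, Matrix.of_apply]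
  rw [star_prod]
  refine Finset.prod_congr rfl fun y _ => ?_
  split_ifs
  · rw [Matrix.conjTranspose_apply]
  · rw [← Matrix.conjTranspose_apply, Matrix.conjTranspose_one]

lemma siteOp_transpose (x : Λ) (A : Matrix (Fin (n + 1)) (Fin (n + 1)) ℂ) :
    (siteOp x A)ᵀ = siteOp x Aᵀ := by
  ext σ τ
  rw [Matrix.transpose_apply]
  simp only [siteOp, Matrix.of_apply]
  refine Finset.prod_congr rfl fun y _ => ?_
  split_ifs
  · rw [Matrix.transpose_apply]
  · change (1 : Matrix (Fin (n + 1)) (Fin (n + 1)) ℂ)ᵀ (σ y) (τ y) = _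
    rw [Matrix.transpose_one]

/-! Local spin algebra. -/

/-- Schwinger factors: `a = diag √(n-j)`, `b |j⟩ = √j |j-1⟩`. -/
noncomputable def schwA (n : ℕ) : Matrix (Fin (n + 1)) (Fin (n + 1)) ℂ :=
  Matrix.diagonal fun j => ((Real.sqrt ((n : ℝ) - (j : ℕ)) : ℝ) : ℂ)

noncomputable def schwB (n : ℕ) : Matrix (Fin (n + 1)) (Fin (n + 1)) ℂ :=
  Matrix.of fun i j => if (j : ℕ) = (i : ℕ) + 1 then ((Real.sqrt ((j : ℕ) : ℝ) : ℝ) : ℂ) else 0

lemma fin_le (j : Fin (n + 1)) : ((j : ℕ) : ℝ) ≤ n := by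
  exact_mod_cast Nat.lt_succ_iff.1 j.2

lemma spinLower_apply (i j : Fin (n + 1)) : spinLower n i j =
    if (i : ℕ) = (j : ℕ) + 1 then ((Real.sqrt (((i : ℕ) : ℝ) * ((n : ℝ) + 1 - (i : ℕ))) : ℝ) : ℂ)
    else 0 := rfl

lemma spinLower_conj_apply (i j : Fin (n + 1)) : (spinLower n)ᴴ i j =
    if (j : ℕ) = (i : ℕ) + 1 then ((Real.sqrt (((j : ℕ) : ℝ) * ((n : ℝ) + 1 - (j : ℕ))) : ℝ) : ℂ)
    else 0 := by
  rw [Matrix.conjTranspose_apply, spinLower_apply]
  split_ifs <;> simp

lemma spinLower_transpose : (spinLower n)ᵀ = (spinLower n)ᴴ := by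
  ext i j
  rw [spinLower_conj_apply, Matrix.transpose_apply, spinLower_apply]

lemma spinZ_conj : (spinZ n)ᴴ = spinZ n := by
  rw [spinZ, Matrix.diagonal_conjTranspose]
  congr 1
  ext j
  simp

lemma spinZ_transpose : (spinZ n)ᵀ = spinZ n := Matrix.diagonal_transpose _

/-- `a† b = S⁺`. -/
lemma schwA_schwB : (schwA n)ᴴ * schwB n = (spinLower n)ᴴ := by
  ext i j
  rw [spinLower_conj_apply, schwA, Matrix.diagonal_conjTranspose, Matrix.diagonal_mul]
  simp only [schwB, Matrix.of_apply, Pi.star_apply]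
  split_ifs with h
  · rw [RCLike.star_def, Complex.conj_ofReal, ← Complex.ofReal_mul, mul_comm, ← Real.sqrt_mul (by positivity)]
    congr 3
    rw [h]; push_cast; ring
  · simp

lemma schwB_schwA : (schwB n)ᴴ * schwA n = spinLower n := by
  have := congrArg Matrix.conjTranspose (schwA_schwB (n := n))
  rw [Matrix.conjTranspose_mul] at this
  simpa using this

lemma schwA_schwA : (schwA n)ᴴ * schwA n = ((n : ℂ) / 2) • (1 : Matrix _ _ ℂ) + spinZ n := by
  rw [schwA, Matrix.diagonal_conjTranspose, Matrix.diagonal_mul_diagonal, spinZ,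
    ← Matrix.diagonal_one, ← Matrix.diagonal_smul, Matrix.diagonal_add]
  congr 1
  ext j
  have h : 0 ≤ (n : ℝ) - (j : ℕ) := by have := fin_le j; linarith
  simp only [Pi.star_apply, RCLike.star_def, Complex.conj_ofReal, Pi.smul_apply, smul_eq_mul, mul_one]
  rw [← Complex.ofReal_mul, Real.mul_self_sqrt h]
  push_cast; ring

lemma schwB_schwB : (schwB n)ᴴ * schwB n = ((n : ℂ) / 2) • (1 : Matrix _ _ ℂ) - spinZ n := by
  rw [spinZ, ← Matrix.diagonal_one, ← Matrix.diagonal_smul, Matrix.diagonal_sub]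
  ext i j
  rw [Matrix.mul_apply]
  simp only [Matrix.conjTranspose_apply, schwB, Matrix.of_apply]
  rw [Matrix.diagonal_apply]
  split_ifs with hij
  · subst hij
    simp only [Pi.smul_apply, smul_eq_mul, mul_one]
    rcases Nat.eq_zero_or_pos (i : ℕ) with h0 | hpos
    · rw [Finset.sum_eq_zero]
      · simp [h0]
      · intro k _
        rw [if_neg (by omega)]; simp
    · rw [Finset.sum_eq_single (⟨(i : ℕ) - 1, by omega⟩ : Fin (n + 1))]
      · rw [if_pos (by simp; omega)]
        rw [RCLike.star_def, Complex.conj_ofReal, ← Complex.ofReal_mul,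
          Real.mul_self_sqrt (by positivity)]
        push_cast; ring
      · intro k _ hk
        rw [if_neg]
        · simp
        · intro h
          apply hk
          ext; simp; omega
      · simp
  · apply Finset.sum_eq_zero
    intro k _
    by_cases h1 : (i : ℕ) = (k : ℕ) + 1
    · rw [if_neg (c := (j : ℕ) = (k : ℕ) + 1)]
      · simp
      · intro h2; exact hij (Fin.ext (h1.trans h2.symm))
    · rw [if_neg h1]; simp

/-- `S⁻ S⁺ = diag (j (n+1-j))`. -/
lemma lower_raise : spinLower n * (spinLower n)ᴴ =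
    Matrix.diagonal fun j : Fin (n + 1) => (((j : ℕ) : ℂ) * ((n : ℂ) + 1 - ((j : ℕ) : ℂ))) := by
  ext i j
  rw [Matrix.mul_apply, Matrix.diagonal_apply]
  simp only [Matrix.conjTranspose_apply, spinLower_apply]
  split_ifs with hij
  · subst hij
    rcases Nat.eq_zero_or_pos (i : ℕ) with h0 | hpos
    · rw [Finset.sum_eq_zero]
      · simp [h0]
      · intro k _
        rw [if_neg (by omega)]; simp
    · rw [Finset.sum_eq_single (⟨(i : ℕ) - 1, by omega⟩ : Fin (n + 1))]
      · rw [if_pos (by simp; omega)]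
        have h : 0 ≤ ((i : ℕ) : ℝ) * ((n : ℝ) + 1 - (i : ℕ)) := by
          have := fin_le i
          exact mul_nonneg (by positivity) (by linarith)
        rw [RCLike.star_def, Complex.conj_ofReal, ← Complex.ofReal_mul, Real.mul_self_sqrt h]
        push_cast; ring
      · intro k _ hk
        rw [if_neg]
        · simp
        · intro h
          apply hk
          ext; simp; omega
      · simp
  · apply Finset.sum_eq_zero
    intro k _
    by_cases h1 : (i : ℕ) = (k : ℕ) + 1
    · rw [if_neg (c := (j : ℕ) = (k : ℕ) + 1)]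
      · simp
      · intro h2; exact hij (Fin.ext (h1.trans h2.symm))
    · rw [if_neg h1]; simp

/-- `S⁺ S⁻ = diag ((j+1) (n-j))`. -/
lemma raise_lower : (spinLower n)ᴴ * spinLower n =
    Matrix.diagonal fun j : Fin (n + 1) => ((((j : ℕ) : ℂ) + 1) * ((n : ℂ) - ((j : ℕ) : ℂ))) := by
  ext i j
  rw [Matrix.mul_apply, Matrix.diagonal_apply]
  simp only [Matrix.conjTranspose_apply, spinLower_apply]
  split_ifs with hij
  · subst hij
    rcases Nat.lt_or_ge (i : ℕ) n with hlt | hge
    · rw [Finset.sum_eq_single (⟨(i : ℕ) + 1, by omega⟩ : Fin (n + 1))]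
      · rw [if_pos (by simp)]
        have h : 0 ≤ (((i : ℕ) + 1 : ℕ) : ℝ) * ((n : ℝ) + 1 - ((i : ℕ) + 1 : ℕ)) := by
          have := fin_le i
          refine mul_nonneg (by positivity) ?_
          push_cast; linarith
        rw [RCLike.star_def, Complex.conj_ofReal, ← Complex.ofReal_mul, Real.mul_self_sqrt h]
        push_cast; ring
      · intro k _ hk
        rw [if_neg]
        · simp
        · intro h
          apply hk
          ext; simp; omega
      · simp
    · have hi : (i : ℕ) = n := by have := i.2; omega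
      rw [Finset.sum_eq_zero]
      · rw [hi]; simp
      · intro k _
        rw [if_neg (by have := k.2; omega)]; simp
  · apply Finset.sum_eq_zero
    intro k _
    by_cases h1 : (k : ℕ) = (i : ℕ) + 1
    · rw [if_neg (c := (k : ℕ) = (j : ℕ) + 1)]
      · simp
      · intro h2; exact hij (Fin.ext (by omega))
    · rw [if_neg h1]; simp

/-- `[S⁺, S⁻] = 2 S³`. -/
lemma comm_raise_lower : (spinLower n)ᴴ * spinLower n - spinLower n * (spinLower n)ᴴ =
    (2 : ℂ) • spinZ n := by
  rw [raise_lower, lower_raise, Matrix.diagonal_sub, spinZ, ← Matrix.diagonal_smul]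
  congr 1
  ext j
  simp only [Pi.smul_apply, smul_eq_mul]
  ring

/-- `[S³, S⁻] = - S⁻`. -/
lemma comm_z_lower : spinZ n * spinLower n - spinLower n * spinZ n = - spinLower n := by
  ext i j
  rw [Matrix.sub_apply, Matrix.neg_apply, spinZ, Matrix.diagonal_mul, Matrix.mul_diagonal,
    spinLower_apply]
  split_ifs with h
  · rw [h]; push_cast; ring
  · simp

end Vale.Agent.P361.H
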